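import Mathlib
import Vale.Agent.Lib.P157.Lim.Defs
import Vale.Agent.Lib.P157.PD.Defs

/-!
# P157: the spherical case, definitions

The configuration space is described by a probability measure `m` on `ℝ^n` (the law of the
configuration vector `y`); a pattern `g` acting through the coefficient vector `c` sees the
configuration through `∑ i, g i * c i * y i`, and contributes the weight `1 - u (...)`.

The uniform probability measure on the unit sphere of `ℝ^n` is realised as the law `sphLaw n` of
the direction `x / ‖x‖` of a standard Gaussian vector `x`.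
-/

open MeasureTheory ProbabilityTheory

namespace Vale.Agent.Lib.P157

/-- The partition function for the configuration law `m`, weight `1 - u` per pattern, patterns
`G a` acting through the coefficient vectors `κ a`. -/
noncomputable def ZcM (u : ℝ → ℝ) {ι : Type*} [Fintype ι] {n : ℕ} (m : Measure (Fin n → ℝ))
    (κ : ι → Fin n → ℝ) (G : ι → Fin n → ℝ) : ℝ :=
  ∫ y, ∏ a, (1 - u (∑ i, G a i * κ a i * y i)) ∂m

/-- The expected logarithm of the partition function, for independent standard Gaussian
patterns. -/
noncomputable def AcM (u : ℝ → ℝ) {ι : Type*} [Fintype ι] {n : ℕ} (m : Measure (Fin n → ℝ))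
    (κ : ι → Fin n → ℝ) : ℝ :=
  ∫ G, Real.log (ZcM u m κ G) ∂(Measure.pi (fun _ : ι => gauss n))

/-- The Euclidean norm on `Fin n → ℝ`. -/
noncomputable def euclNorm {n : ℕ} (x : Fin n → ℝ) : ℝ := Real.sqrt (∑ i, x i ^ 2)

/-- The direction `x / ‖x‖` of a vector (zero for the zero vector). -/
noncomputable def dirv {n : ℕ} (x : Fin n → ℝ) : Fin n → ℝ := fun i => x i / euclNorm x

/-- The law of the direction of a standard Gaussian vector: the uniform probability measure on
the unit sphere, as a measure on `Fin n → ℝ`. -/
noncomputable def sphLaw (n : ℕ) : Measure (Fin n → ℝ) := (gauss n).map dirv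

/-- The canonical spherical system: `k` patterns, configurations uniform on the unit sphere of
`ℝ^n`. -/
noncomputable def AsphU (u : ℝ → ℝ) (n k : ℕ) : ℝ :=
  AcM u (sphLaw n) (fun (_ : Fin k) (_ : Fin n) => 1)

/-- The law of the concatenation of two independent configuration vectors. -/
noncomputable def joinLaw {N1 N2 : ℕ} (m1 : Measure (Fin N1 → ℝ)) (m2 : Measure (Fin N2 → ℝ)) :
    Measure (Fin (N1 + N2) → ℝ) :=
  (m1.prod m2).map (fun z => Fin.append z.1 z.2)

/-- The coefficient vector of a pattern that sees only the first block. -/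
noncomputable def blk1 (N1 N2 : ℕ) : Fin (N1 + N2) → ℝ :=
  Fin.append (fun _ => 1) (fun _ => 0)

/-- The coefficient vector of a pattern that sees only the second block. -/
noncomputable def blk2 (N1 N2 : ℕ) : Fin (N1 + N2) → ℝ :=
  Fin.append (fun _ => 0) (fun _ => 1)

/-- The coefficient vector `(√ρ, …, √ρ, √(1-ρ), …, √(1-ρ))`. -/
noncomputable def cRho (N1 N2 : ℕ) (ρ : ℝ) : Fin (N1 + N2) → ℝ :=
  Fin.append (fun _ => Real.sqrt ρ) (fun _ => Real.sqrt (1 - ρ))

/-- The fraction of the squared Euclidean norm carried by the first block. -/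
noncomputable def rhoFrac (N1 N2 : ℕ) (y : Fin (N1 + N2) → ℝ) : ℝ :=
  (∑ i : Fin N1, y (Fin.castAdd N2 i) ^ 2) / (∑ i, y i ^ 2)

end Vale.Agent.Lib.P157
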