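import Mathlib
import Vale.Agent.Lib.P157.Lim.Defs
import Vale.Agent.Lib.P157.Lim.ZcBasic
import Vale.Agent.Lib.P157.PD.Defs
import Vale.Agent.Lib.P157.PD.ZcBasic
import Vale.Agent.Lib.P157.Sph.Defs

/-!
# P157: basic bounds for the partition function of a general configuration law
-/

open MeasureTheory ProbabilityTheory

namespace Vale.Agent.Lib.P157

variable (u : ℝ → ℝ) (θ : ℝ)

section ZcM

variable {ι : Type*} [Fintype ι] {n : ℕ}

lemma continuous_ZcM_integrand (hu : Continuous u) :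
    Continuous (fun P : ((ι → Fin n → ℝ) × (ι → Fin n → ℝ)) × (Fin n → ℝ) =>
      ∏ a, (1 - u (∑ i, P.1.2 a i * P.1.1 a i * P.2 i))) := by
  fun_prop

lemma continuous_ZcM_integrand_right (hu : Continuous u) (κ G : ι → Fin n → ℝ) :
    Continuous (fun y : Fin n → ℝ => ∏ a, (1 - u (∑ i, G a i * κ a i * y i))) := by
  fun_prop

lemma ZcM_integrand_lower (hθ1 : θ < 1) (hθ : ∀ s, |u s| ≤ θ) (κ G : ι → Fin n → ℝ)
    (y : Fin n → ℝ) :
    (1 - θ) ^ Fintype.card ι ≤ ∏ a, (1 - u (∑ i, G a i * κ a i * y i)) := by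
  calc (1 - θ) ^ Fintype.card ι = ∏ _a : ι, (1 - θ) := by simp
    _ ≤ ∏ a, (1 - u (∑ i, G a i * κ a i * y i)) :=
      Finset.prod_le_prod (fun _ _ => by linarith) (fun a _ => one_sub_u_lower u θ hθ _)

lemma ZcM_integrand_upper (hθ1 : θ < 1) (hθ : ∀ s, |u s| ≤ θ) (κ G : ι → Fin n → ℝ)
    (y : Fin n → ℝ) :
    ∏ a, (1 - u (∑ i, G a i * κ a i * y i)) ≤ (1 + θ) ^ Fintype.card ι := by
  calc ∏ a, (1 - u (∑ i, G a i * κ a i * y i)) ≤ ∏ _a : ι, (1 + θ) :=
      Finset.prod_le_prod (fun a _ => (one_sub_u_pos u θ hθ1 hθ _).le)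
        (fun a _ => one_sub_u_upper u θ hθ _)
    _ = (1 + θ) ^ Fintype.card ι := by simp

lemma ZcM_integrand_pos (hθ1 : θ < 1) (hθ : ∀ s, |u s| ≤ θ) (κ G : ι → Fin n → ℝ)
    (y : Fin n → ℝ) : 0 < ∏ a, (1 - u (∑ i, G a i * κ a i * y i)) :=
  Finset.prod_pos fun _ _ => one_sub_u_pos u θ hθ1 hθ _

lemma integrable_ZcM_integrand (hu : Continuous u) (hθ1 : θ < 1) (hθ : ∀ s, |u s| ≤ θ)
    (m : Measure (Fin n → ℝ)) [IsFiniteMeasure m] (κ G : ι → Fin n → ℝ) :
    Integrable (fun y : Fin n → ℝ => ∏ a, (1 - u (∑ i, G a i * κ a i * y i))) m :=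
  Integrable.of_bound (continuous_ZcM_integrand_right u hu κ G).aestronglyMeasurable
    ((1 + θ) ^ Fintype.card ι) (Filter.Eventually.of_forall fun y => by
      rw [Real.norm_eq_abs, abs_of_pos (ZcM_integrand_pos u θ hθ1 hθ κ G y)]
      exact ZcM_integrand_upper u θ hθ1 hθ κ G y)

variable (m : Measure (Fin n → ℝ)) [IsProbabilityMeasure m]

lemma ZcM_lower (hu : Continuous u) (hθ1 : θ < 1) (hθ : ∀ s, |u s| ≤ θ) (κ G : ι → Fin n → ℝ) :
    (1 - θ) ^ Fintype.card ι ≤ ZcM u m κ G := by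
  unfold ZcM
  have h := integral_mono (μ := m) (integrable_const ((1 - θ) ^ Fintype.card ι))
    (integrable_ZcM_integrand u θ hu hθ1 hθ m κ G)
    (fun y => ZcM_integrand_lower u θ hθ1 hθ κ G y)
  simpa using h

lemma ZcM_upper (hu : Continuous u) (hθ1 : θ < 1) (hθ : ∀ s, |u s| ≤ θ) (κ G : ι → Fin n → ℝ) :
    ZcM u m κ G ≤ (1 + θ) ^ Fintype.card ι := by
  unfold ZcM
  have h := integral_mono (μ := m) (integrable_ZcM_integrand u θ hu hθ1 hθ m κ G)
    (integrable_const ((1 + θ) ^ Fintype.card ι))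
    (fun y => ZcM_integrand_upper u θ hθ1 hθ κ G y)
  simpa using h

lemma ZcM_pos (hu : Continuous u) (hθ1 : θ < 1) (hθ : ∀ s, |u s| ≤ θ) (κ G : ι → Fin n → ℝ) :
    0 < ZcM u m κ G := by
  have h0 : 0 < 1 - θ := by linarith
  exact lt_of_lt_of_le (by positivity) (ZcM_lower u θ m hu hθ1 hθ κ G)

lemma log_ZcM_le (hu : Continuous u) (hθ1 : θ < 1) (hθ : ∀ s, |u s| ≤ θ)
    (κ G : ι → Fin n → ℝ) :
    Real.log (ZcM u m κ G) ≤ Fintype.card ι * Real.log (1 + θ) := by
  have h := Real.log_le_log (ZcM_pos u θ m hu hθ1 hθ κ G) (ZcM_upper u θ m hu hθ1 hθ κ G)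
  rw [Real.log_pow] at h
  exact h

lemma le_log_ZcM (hu : Continuous u) (hθ1 : θ < 1) (hθ : ∀ s, |u s| ≤ θ)
    (κ G : ι → Fin n → ℝ) :
    Fintype.card ι * Real.log (1 - θ) ≤ Real.log (ZcM u m κ G) := by
  have h1 : 0 < 1 - θ := by linarith
  have h := Real.log_le_log (by positivity) (ZcM_lower u θ m hu hθ1 hθ κ G)
  rw [Real.log_pow] at h
  exact h

lemma abs_log_ZcM_le (hu : Continuous u) (hθ1 : θ < 1) (hθ : ∀ s, |u s| ≤ θ)
    (κ G : ι → Fin n → ℝ) :
    |Real.log (ZcM u m κ G)| ≤ Fintype.card ι * (-Real.log (1 - θ)) := by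
  have h0 := theta_nonneg u θ hθ
  have h1 := log_ZcM_le u θ m hu hθ1 hθ κ G
  have h2 := le_log_ZcM u θ m hu hθ1 hθ κ G
  have h3 := log_one_add_theta_le θ h0 hθ1
  have h4 : (0 : ℝ) ≤ Fintype.card ι := Nat.cast_nonneg _
  have h5 := mul_le_mul_of_nonneg_left h3 h4
  rw [abs_le]
  constructor <;> nlinarith

omit [IsProbabilityMeasure m] in
lemma measurable_ZcM_uncurry (hu : Continuous u) [SFinite m] :
    Measurable (fun P : (ι → Fin n → ℝ) × (ι → Fin n → ℝ) => ZcM u m P.1 P.2) := by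
  unfold ZcM
  exact ((continuous_ZcM_integrand (ι := ι) (n := n) u hu).stronglyMeasurable.integral_prod_right'
    (ν := m)).measurable

omit [IsProbabilityMeasure m] in
lemma measurable_ZcM (hu : Continuous u) [SFinite m] (κ : ι → Fin n → ℝ) :
    Measurable (fun G => ZcM u m κ G) := by
  have h := measurable_ZcM_uncurry (ι := ι) u m hu
  have h2 : Measurable (fun G : ι → Fin n → ℝ => ((κ, G) : (ι → Fin n → ℝ) × (ι → Fin n → ℝ))) :=
    Measurable.prodMk measurable_const measurable_id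
  exact Measurable.comp (g := fun P : (ι → Fin n → ℝ) × (ι → Fin n → ℝ) => ZcM u m P.1 P.2)
    (f := fun G : ι → Fin n → ℝ => ((κ, G) : (ι → Fin n → ℝ) × (ι → Fin n → ℝ))) h h2

omit [IsProbabilityMeasure m] in
lemma measurable_log_ZcM (hu : Continuous u) [SFinite m] (κ : ι → Fin n → ℝ) :
    Measurable (fun G => Real.log (ZcM u m κ G)) :=
  Real.measurable_log.comp (measurable_ZcM u m hu κ)

lemma integrable_log_ZcM (hu : Continuous u) (hθ1 : θ < 1) (hθ : ∀ s, |u s| ≤ θ)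
    (κ : ι → Fin n → ℝ) (μ : Measure (ι → Fin n → ℝ)) [IsFiniteMeasure μ] :
    Integrable (fun G => Real.log (ZcM u m κ G)) μ :=
  Integrable.of_bound (measurable_log_ZcM u m hu κ).aestronglyMeasurable
    (Fintype.card ι * (-Real.log (1 - θ)))
    (Filter.Eventually.of_forall fun G => by
      simpa [Real.norm_eq_abs] using abs_log_ZcM_le u θ m hu hθ1 hθ κ G)

lemma abs_AcM_le (hu : Continuous u) (hθ1 : θ < 1) (hθ : ∀ s, |u s| ≤ θ) (κ : ι → Fin n → ℝ) :
    |AcM u m κ| ≤ Fintype.card ι * (-Real.log (1 - θ)) := by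
  unfold AcM
  have h := norm_integral_le_of_norm_le_const (μ := Measure.pi (fun _ : ι => gauss n))
    (f := fun G => Real.log (ZcM u m κ G))
    (C := Fintype.card ι * (-Real.log (1 - θ)))
    (Filter.Eventually.of_forall fun G => by
      simpa [Real.norm_eq_abs] using abs_log_ZcM_le u θ m hu hθ1 hθ κ G)
  simpa [Real.norm_eq_abs] using h

lemma AcM_le (hu : Continuous u) (hθ1 : θ < 1) (hθ : ∀ s, |u s| ≤ θ) (κ : ι → Fin n → ℝ) :
    AcM u m κ ≤ Fintype.card ι * Real.log (1 + θ) := by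
  unfold AcM
  have h := integral_mono (μ := Measure.pi (fun _ : ι => gauss n))
    (integrable_log_ZcM u θ m hu hθ1 hθ κ _) (integrable_const _)
    (fun G => log_ZcM_le u θ m hu hθ1 hθ κ G)
  simpa using h

end ZcM

section Sphere

lemma measurable_euclNorm {n : ℕ} : Measurable (euclNorm (n := n)) := by
  unfold euclNorm
  fun_prop

lemma measurable_dirv {n : ℕ} : Measurable (dirv (n := n)) := by
  unfold dirv
  have h := measurable_euclNorm (n := n)
  fun_prop

instance sphLaw_isProbabilityMeasure (n : ℕ) : IsProbabilityMeasure (sphLaw n) := by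
  unfold sphLaw
  exact Measure.isProbabilityMeasure_map measurable_dirv.aemeasurable

lemma measurable_append (N1 N2 : ℕ) :
    Measurable (fun z : (Fin N1 → ℝ) × (Fin N2 → ℝ) => (Fin.append z.1 z.2 : Fin (N1 + N2) → ℝ)) := by
  refine measurable_pi_lambda _ (fun i => ?_)
  refine Fin.addCases (fun j => ?_) (fun j => ?_) i
  · simp only [Fin.append_left]
    fun_prop
  · simp only [Fin.append_right]
    fun_prop

instance joinLaw_isProbabilityMeasure {N1 N2 : ℕ} (m1 : Measure (Fin N1 → ℝ))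
    (m2 : Measure (Fin N2 → ℝ)) [IsProbabilityMeasure m1] [IsProbabilityMeasure m2] :
    IsProbabilityMeasure (joinLaw m1 m2) := by
  unfold joinLaw
  exact Measure.isProbabilityMeasure_map (measurable_append N1 N2).aemeasurable

lemma measurable_rhoFrac (N1 N2 : ℕ) : Measurable (rhoFrac N1 N2) := by
  unfold rhoFrac
  fun_prop

lemma rhoFrac_nonneg (N1 N2 : ℕ) (y : Fin (N1 + N2) → ℝ) : 0 ≤ rhoFrac N1 N2 y := by
  unfold rhoFrac
  exact div_nonneg (Finset.sum_nonneg fun _ _ => sq_nonneg _)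
    (Finset.sum_nonneg fun _ _ => sq_nonneg _)

lemma rhoFrac_le_one (N1 N2 : ℕ) (y : Fin (N1 + N2) → ℝ) : rhoFrac N1 N2 y ≤ 1 := by
  unfold rhoFrac
  have h : ∑ i : Fin N1, y (Fin.castAdd N2 i) ^ 2 ≤ ∑ i, y i ^ 2 := by
    rw [Fin.sum_univ_add]
    have : 0 ≤ ∑ i : Fin N2, y (Fin.natAdd N1 i) ^ 2 := Finset.sum_nonneg fun _ _ => sq_nonneg _
    linarith
  exact div_le_one_of_le₀ h (Finset.sum_nonneg fun _ _ => sq_nonneg _)

lemma measurable_cRho (N1 N2 : ℕ) : Measurable (cRho N1 N2) := by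
  unfold cRho
  refine measurable_pi_lambda _ (fun i => ?_)
  refine Fin.addCases (fun j => ?_) (fun j => ?_) i
  · simp only [Fin.append_left]
    fun_prop
  · simp only [Fin.append_right]
    fun_prop

/-- The mixing identity for the coefficient vectors. -/
lemma cRho_mix (N1 N2 : ℕ) (ρ : ℝ) (h0 : 0 ≤ ρ) (h1 : ρ ≤ 1) (i : Fin (N1 + N2)) :
    cRho N1 N2 ρ i ^ 2 = ρ * blk1 N1 N2 i ^ 2 + (1 - ρ) * blk2 N1 N2 i ^ 2 := by
  refine Fin.addCases (fun j => ?_) (fun j => ?_) i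
  · simp only [cRho, blk1, blk2, Fin.append_left]
    rw [Real.sq_sqrt h0]
    ring
  · simp only [cRho, blk1, blk2, Fin.append_right]
    rw [Real.sq_sqrt (by linarith)]
    ring

end Sphere

end Vale.Agent.Lib.P157
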