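import Mathlib
import Vale.Agent.Lib.P157.Lim.Defs
import Vale.Agent.Lib.P157.Lim.ZcBasic
import Vale.Agent.Lib.P157.Lim.Blocks
import Vale.Agent.Lib.P157.PD.Defs
import Vale.Agent.Lib.P157.PD.ZcBasic
import Vale.Agent.Lib.P157.Sph.Defs
import Vale.Agent.Lib.P157.Sph.ZcBasicM

/-!
# P157: block factorisation of the expected log partition function for a join of two
configuration laws

Port of `AcU_blocks` (`PD/BlocksU.lean`) from the cube to configuration laws: the configuration
is the concatenation of two independent configuration vectors; if every pattern sees only one of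
the two blocks, the system is a product of two independent systems, so `E log Z` splits as a sum.
-/

open MeasureTheory ProbabilityTheory

namespace Vale.Agent.Lib.P157

/-- Pointwise (in the configuration) factorisation of the weight over the two blocks. -/
lemma blocksm_integrand_eq (u : ℝ → ℝ) (N1 N2 M : ℕ) (β : Fin M → Bool)
    (G : Fin M → Fin (N1 + N2) → ℝ) (z1 : Fin N1 → ℝ) (z2 : Fin N2 → ℝ) :
    (∏ a, (1 - u (∑ i, G a i * (if β a then blk1 N1 N2 else blk2 N1 N2) i
        * (Fin.append z1 z2 : Fin (N1 + N2) → ℝ) i)))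
      = (∏ a ∈ Finset.univ.filter (fun a => β a = true),
            (1 - u (∑ i : Fin N1, G a (Fin.castAdd N2 i) * 1 * z1 i)))
        * (∏ a ∈ Finset.univ.filter (fun a => β a = false),
            (1 - u (∑ i : Fin N2, G a (Fin.natAdd N1 i) * 1 * z2 i))) := by
  rw [← Finset.prod_filter_mul_prod_filter_not Finset.univ (fun a => β a = true)]
  congr 1
  · refine Finset.prod_congr rfl fun a ha => ?_
    have hβ : β a = true := (Finset.mem_filter.1 ha).2
    simp only [hβ, if_true]
    congr 2
    rw [Fin.sum_univ_add]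
    simp [blk1]
  · have hfil : Finset.filter (fun a => ¬ β a = true) Finset.univ
        = Finset.filter (fun a => β a = false) Finset.univ := by
      ext a; simp
    rw [hfil]
    refine Finset.prod_congr rfl fun a ha => ?_
    have hβ : β a = false := (Finset.mem_filter.1 ha).2
    simp only [hβ]
    congr 2
    rw [Fin.sum_univ_add]
    simp [blk2]

/-- A block weight integrated against a configuration law is the partition function of a
sub-array. -/
lemma blocksm_integral_eq_ZcM (u : ℝ → ℝ) {M n k : ℕ} (m : Measure (Fin k → ℝ))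
    (s : Finset (Fin M)) (c : Fin k → Fin n) (G : Fin M → Fin n → ℝ) :
    (∫ y, ∏ a ∈ s, (1 - u (∑ i : Fin k, G a (c i) * 1 * y i)) ∂m)
      = ZcM u m (fun (_ : Fin s.card) (_ : Fin k) => (1 : ℝ))
          (fun j i => G (s.orderEmbOfFin rfl j) (c i)) := by
  unfold ZcM
  refine integral_congr_ae (Filter.Eventually.of_forall fun y => ?_)
  exact blocks_prod_orderEmb s _

/-- Factorisation of the partition function of the joined system. -/
lemma blocksm_ZcM_eq (u : ℝ → ℝ) (hu : Continuous u) (N1 N2 M : ℕ)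
    (m1 : Measure (Fin N1 → ℝ)) [IsProbabilityMeasure m1]
    (m2 : Measure (Fin N2 → ℝ)) [IsProbabilityMeasure m2] (β : Fin M → Bool)
    (G : Fin M → Fin (N1 + N2) → ℝ) :
    ZcM u (joinLaw m1 m2) (fun a : Fin M => if β a then blk1 N1 N2 else blk2 N1 N2) G
      = ZcM u m1 (fun (_ : Fin (Finset.univ.filter (fun a => β a = true)).card) (_ : Fin N1) =>
            (1 : ℝ))
          (fun j i => G ((Finset.univ.filter (fun a => β a = true)).orderEmbOfFin rfl j)
            (Fin.castAdd N2 i))
        * ZcM u m2 (fun (_ : Fin (Finset.univ.filter (fun a => β a = false)).card) (_ : Fin N2) =>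
            (1 : ℝ))
          (fun j i => G ((Finset.univ.filter (fun a => β a = false)).orderEmbOfFin rfl j)
            (Fin.natAdd N1 i)) := by
  rw [← blocksm_integral_eq_ZcM u m1 (Finset.univ.filter (fun a => β a = true))
      (Fin.castAdd N2) G,
    ← blocksm_integral_eq_ZcM u m2 (Finset.univ.filter (fun a => β a = false))
      (Fin.natAdd N1) G]
  rw [← integral_prod_mul (μ := m1) (ν := m2)
    (fun y : Fin N1 → ℝ => ∏ a ∈ Finset.univ.filter (fun a => β a = true),
      (1 - u (∑ i : Fin N1, G a (Fin.castAdd N2 i) * 1 * y i)))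
    (fun y : Fin N2 → ℝ => ∏ a ∈ Finset.univ.filter (fun a => β a = false),
      (1 - u (∑ i : Fin N2, G a (Fin.natAdd N1 i) * 1 * y i)))]
  unfold ZcM joinLaw
  rw [integral_map (measurable_append N1 N2).aemeasurable
    (continuous_ZcM_integrand_right u hu _ G).aestronglyMeasurable]
  refine integral_congr_ae (Filter.Eventually.of_forall fun z => ?_)
  exact blocksm_integrand_eq u N1 N2 M β G z.1 z.2

theorem AcM_blocks (u : ℝ → ℝ) (hu : Continuous u) (θ : ℝ) (hθ1 : θ < 1) (hθ : ∀ s, |u s| ≤ θ)
    (N1 N2 M : ℕ) (m1 : Measure (Fin N1 → ℝ)) [IsProbabilityMeasure m1]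
    (m2 : Measure (Fin N2 → ℝ)) [IsProbabilityMeasure m2] (β : Fin M → Bool) :
    AcM u (joinLaw m1 m2) (fun a : Fin M => if β a then blk1 N1 N2 else blk2 N1 N2)
      = AcM u m1 (fun (_ : Fin (Finset.univ.filter (fun a => β a = true)).card) (_ : Fin N1) =>
          (1 : ℝ))
        + AcM u m2 (fun (_ : Fin (Finset.univ.filter (fun a => β a = false)).card) (_ : Fin N2) =>
          (1 : ℝ)) := by
  classical
  set s1 : Finset (Fin M) := Finset.univ.filter (fun a => β a = true) with hs1
  set s2 : Finset (Fin M) := Finset.univ.filter (fun a => β a = false) with hs2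
  set Φ1 : (Fin M → Fin (N1 + N2) → ℝ) → (Fin s1.card → Fin N1 → ℝ) :=
    fun G j i => G (s1.orderEmbOfFin rfl j) (Fin.castAdd N2 i) with hΦ1
  set Φ2 : (Fin M → Fin (N1 + N2) → ℝ) → (Fin s2.card → Fin N2 → ℝ) :=
    fun G j i => G (s2.orderEmbOfFin rfl j) (Fin.natAdd N1 i) with hΦ2
  have hm1 : Measurable Φ1 :=
    measurable_pi_lambda _ fun j => measurable_pi_lambda _ fun i =>
      (measurable_pi_apply (Fin.castAdd N2 i)).comp (measurable_pi_apply (s1.orderEmbOfFin rfl j))
  have hm2 : Measurable Φ2 :=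
    measurable_pi_lambda _ fun j => measurable_pi_lambda _ fun i =>
      (measurable_pi_apply (Fin.natAdd N1 i)).comp (measurable_pi_apply (s2.orderEmbOfFin rfl j))
  have hlaw1 : (Measure.pi (fun _ : Fin M => gauss (N1 + N2))).map Φ1
      = Measure.pi (fun _ : Fin s1.card => gauss N1) :=
    blocks_law (s1.orderEmbOfFin rfl) (s1.orderEmbOfFin rfl).injective (Fin.castAdd N2)
      (Fin.castAdd_injective N1 N2)
  have hlaw2 : (Measure.pi (fun _ : Fin M => gauss (N1 + N2))).map Φ2
      = Measure.pi (fun _ : Fin s2.card => gauss N2) :=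
    blocks_law (s2.orderEmbOfFin rfl) (s2.orderEmbOfFin rfl).injective (Fin.natAdd N1)
      (Fin.natAdd_injective N2 N1)
  have hpt : ∀ G : Fin M → Fin (N1 + N2) → ℝ,
      Real.log (ZcM u (joinLaw m1 m2)
          (fun a : Fin M => if β a then blk1 N1 N2 else blk2 N1 N2) G)
        = Real.log (ZcM u m1 (fun (_ : Fin s1.card) (_ : Fin N1) => (1 : ℝ)) (Φ1 G))
          + Real.log (ZcM u m2 (fun (_ : Fin s2.card) (_ : Fin N2) => (1 : ℝ)) (Φ2 G)) := by
    intro G
    rw [blocksm_ZcM_eq u hu N1 N2 M m1 m2 β G,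
      Real.log_mul (ZcM_pos u θ m1 hu hθ1 hθ _ _).ne' (ZcM_pos u θ m2 hu hθ1 hθ _ _).ne']
  have hi1 : Integrable (fun G => Real.log
      (ZcM u m1 (fun (_ : Fin s1.card) (_ : Fin N1) => (1 : ℝ)) (Φ1 G)))
      (Measure.pi (fun _ : Fin M => gauss (N1 + N2))) :=
    (integrable_log_ZcM u θ m1 hu hθ1 hθ _ _).comp_measurable hm1
  have hi2 : Integrable (fun G => Real.log
      (ZcM u m2 (fun (_ : Fin s2.card) (_ : Fin N2) => (1 : ℝ)) (Φ2 G)))
      (Measure.pi (fun _ : Fin M => gauss (N1 + N2))) :=
    (integrable_log_ZcM u θ m2 hu hθ1 hθ _ _).comp_measurable hm2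
  have e1 : ∫ G, Real.log
      (ZcM u m1 (fun (_ : Fin s1.card) (_ : Fin N1) => (1 : ℝ)) (Φ1 G))
      ∂(Measure.pi (fun _ : Fin M => gauss (N1 + N2)))
      = AcM u m1 (fun (_ : Fin s1.card) (_ : Fin N1) => (1 : ℝ)) := by
    unfold AcM
    rw [← hlaw1, integral_map hm1.aemeasurable
      (measurable_log_ZcM u m1 hu _).aestronglyMeasurable]
  have e2 : ∫ G, Real.log
      (ZcM u m2 (fun (_ : Fin s2.card) (_ : Fin N2) => (1 : ℝ)) (Φ2 G))
      ∂(Measure.pi (fun _ : Fin M => gauss (N1 + N2)))
      = AcM u m2 (fun (_ : Fin s2.card) (_ : Fin N2) => (1 : ℝ)) := by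
    unfold AcM
    rw [← hlaw2, integral_map hm2.aemeasurable
      (measurable_log_ZcM u m2 hu _).aestronglyMeasurable]
  rw [← e1, ← e2, ← integral_add hi1 hi2]
  unfold AcM
  exact integral_congr_ae (Filter.Eventually.of_forall hpt)

end Vale.Agent.Lib.P157
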