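import Mathlib
import Vale.Agent.Lib.P157.Lim.Defs
import Vale.Agent.Lib.P157.Lim.ZcBasic
import Vale.Agent.Lib.P157.Lim.Chain
import Vale.Agent.Lib.P157.PD.Defs
import Vale.Agent.Lib.P157.PD.ZcBasic
import Vale.Agent.Lib.P157.Sph.Defs
import Vale.Agent.Lib.P157.Sph.ZcBasicM

/-!
# P157: the interpolation chain for a general configuration law

Port of `PD/ChainU.lean` from the cube to a configuration law `m` on `Fin n → ℝ`.
-/

open MeasureTheory ProbabilityTheory

namespace Vale.Agent.Lib.P157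

section chainmMain

variable (u : ℝ → ℝ)

/-- the factor of one pattern `g` acting through the coefficient vector `c` -/
noncomputable def chainmT {n : ℕ} (c g : Fin n → ℝ) (y : Fin n → ℝ) : ℝ :=
  1 - u (∑ i, g i * c i * y i)

/-- the partition function with a weight `w` on the configurations -/
noncomputable def chainmS {n M : ℕ} (m : Measure (Fin n → ℝ)) (w : (Fin n → ℝ) → ℝ)
    (κ : Fin M → Fin n → ℝ) (G : Fin M → Fin n → ℝ) : ℝ :=
  ∫ y, w y * ∏ a, chainmT u (κ a) (G a) y ∂m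

variable {n : ℕ}

lemma chainm_T_pos (θ : ℝ) (hθ1 : θ < 1) (hθ : ∀ s, |u s| ≤ θ) (c g : Fin n → ℝ)
    (y : Fin n → ℝ) : 0 < chainmT u c g y :=
  one_sub_u_pos u θ hθ1 hθ _

lemma chainm_prod_lower (θ : ℝ) (hθ1 : θ < 1) (hθ : ∀ s, |u s| ≤ θ) {M : ℕ}
    (κ G : Fin M → Fin n → ℝ) (y : Fin n → ℝ) :
    (1 - θ) ^ M ≤ ∏ a, chainmT u (κ a) (G a) y := by
  calc (1 - θ) ^ M = ∏ _a : Fin M, (1 - θ) := by simp
    _ ≤ ∏ a, chainmT u (κ a) (G a) y :=
      Finset.prod_le_prod (fun _ _ => by linarith) (fun a _ => one_sub_u_lower u θ hθ _)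

lemma chainm_prod_upper (θ : ℝ) (hθ1 : θ < 1) (hθ : ∀ s, |u s| ≤ θ) {M : ℕ}
    (κ G : Fin M → Fin n → ℝ) (y : Fin n → ℝ) :
    ∏ a, chainmT u (κ a) (G a) y ≤ (1 + θ) ^ M := by
  calc ∏ a, chainmT u (κ a) (G a) y ≤ ∏ _a : Fin M, (1 + θ) :=
      Finset.prod_le_prod (fun a _ => (chainm_T_pos u θ hθ1 hθ _ _ _).le)
        (fun a _ => one_sub_u_upper u θ hθ _)
    _ = (1 + θ) ^ M := by simp

lemma chainm_prod_pos (θ : ℝ) (hθ1 : θ < 1) (hθ : ∀ s, |u s| ≤ θ) {M : ℕ}
    (κ G : Fin M → Fin n → ℝ) (y : Fin n → ℝ) :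
    0 < ∏ a, chainmT u (κ a) (G a) y :=
  Finset.prod_pos fun _ _ => chainm_T_pos u θ hθ1 hθ _ _ _

/-- joint measurability of the integrand -/
lemma chainm_measurable_integrand (hu : Continuous u) {M : ℕ} (w : (Fin n → ℝ) → ℝ)
    (hwm : Measurable w) (κ : Fin M → Fin n → ℝ) :
    Measurable (fun P : (Fin M → Fin n → ℝ) × (Fin n → ℝ) =>
      w P.2 * ∏ a, chainmT u (κ a) (P.1 a) P.2) := by
  have h1 : Measurable (fun P : (Fin M → Fin n → ℝ) × (Fin n → ℝ) => w P.2) :=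
    hwm.comp measurable_snd
  have h2 : Continuous (fun P : (Fin M → Fin n → ℝ) × (Fin n → ℝ) =>
      ∏ a, chainmT u (κ a) (P.1 a) P.2) := by
    unfold chainmT
    fun_prop
  exact h1.mul h2.measurable

lemma chainm_measurable_integrand_right (hu : Continuous u) {M : ℕ} (w : (Fin n → ℝ) → ℝ)
    (hwm : Measurable w) (κ G : Fin M → Fin n → ℝ) :
    Measurable (fun y : Fin n → ℝ => w y * ∏ a, chainmT u (κ a) (G a) y) := by
  have h2 : Continuous (fun y : Fin n → ℝ => ∏ a, chainmT u (κ a) (G a) y) := by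
    unfold chainmT
    fun_prop
  exact hwm.mul h2.measurable

variable (m : Measure (Fin n → ℝ)) [IsProbabilityMeasure m]

lemma chainm_integrable_integrand (hu : Continuous u) (θ : ℝ) (hθ1 : θ < 1)
    (hθ : ∀ s, |u s| ≤ θ) {M : ℕ} (w : (Fin n → ℝ) → ℝ) (hwm : Measurable w) (lo hi : ℝ)
    (hlo : 0 < lo) (hwlo : ∀ y, lo ≤ w y) (hwhi : ∀ y, w y ≤ hi) (κ G : Fin M → Fin n → ℝ) :
    Integrable (fun y : Fin n → ℝ => w y * ∏ a, chainmT u (κ a) (G a) y) m := by
  refine Integrable.of_bound (chainm_measurable_integrand_right u hu w hwm κ G).aestronglyMeasurable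
    (hi * (1 + θ) ^ M) (Filter.Eventually.of_forall fun y => ?_)
  have hw0 : 0 < w y := lt_of_lt_of_le hlo (hwlo y)
  rw [Real.norm_eq_abs, abs_of_pos (mul_pos hw0 (chainm_prod_pos u θ hθ1 hθ κ G y))]
  exact mul_le_mul (hwhi y) (chainm_prod_upper u θ hθ1 hθ κ G y)
    (chainm_prod_pos u θ hθ1 hθ κ G y).le (le_trans hw0.le (hwhi y))

lemma chainm_S_lower (hu : Continuous u) (θ : ℝ) (hθ1 : θ < 1) (hθ : ∀ s, |u s| ≤ θ) {M : ℕ}
    (w : (Fin n → ℝ) → ℝ) (hwm : Measurable w) (lo hi : ℝ)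
    (hlo : 0 < lo) (hwlo : ∀ y, lo ≤ w y) (hwhi : ∀ y, w y ≤ hi) (κ G : Fin M → Fin n → ℝ) :
    lo * (1 - θ) ^ M ≤ chainmS u m w κ G := by
  unfold chainmS
  have h := integral_mono (μ := m) (integrable_const (lo * (1 - θ) ^ M))
    (chainm_integrable_integrand u m hu θ hθ1 hθ w hwm lo hi hlo hwlo hwhi κ G)
    (fun y => mul_le_mul (hwlo y) (chainm_prod_lower u θ hθ1 hθ κ G y)
      (pow_nonneg (by linarith) _) (le_trans hlo.le (hwlo y)))
  simpa using h

lemma chainm_S_upper (hu : Continuous u) (θ : ℝ) (hθ1 : θ < 1) (hθ : ∀ s, |u s| ≤ θ) {M : ℕ}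
    (w : (Fin n → ℝ) → ℝ) (hwm : Measurable w) (lo hi : ℝ)
    (hlo : 0 < lo) (hwlo : ∀ y, lo ≤ w y) (hwhi : ∀ y, w y ≤ hi) (κ G : Fin M → Fin n → ℝ) :
    chainmS u m w κ G ≤ hi * (1 + θ) ^ M := by
  unfold chainmS
  have h := integral_mono (μ := m)
    (chainm_integrable_integrand u m hu θ hθ1 hθ w hwm lo hi hlo hwlo hwhi κ G)
    (integrable_const (hi * (1 + θ) ^ M))
    (fun y => mul_le_mul (hwhi y) (chainm_prod_upper u θ hθ1 hθ κ G y)
      (chainm_prod_pos u θ hθ1 hθ κ G y).le (le_trans (le_trans hlo.le (hwlo y)) (hwhi y)))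
  simpa using h

lemma chainm_lo_pos (θ : ℝ) (hθ1 : θ < 1) (M : ℕ) (lo : ℝ) (hlo : 0 < lo) :
    0 < lo * (1 - θ) ^ M :=
  mul_pos hlo (pow_pos (by linarith) _)

lemma chainm_S_pos (hu : Continuous u) (θ : ℝ) (hθ1 : θ < 1) (hθ : ∀ s, |u s| ≤ θ) {M : ℕ}
    (w : (Fin n → ℝ) → ℝ) (hwm : Measurable w) (lo hi : ℝ)
    (hlo : 0 < lo) (hwlo : ∀ y, lo ≤ w y) (hwhi : ∀ y, w y ≤ hi) (κ G : Fin M → Fin n → ℝ) :
    0 < chainmS u m w κ G :=
  lt_of_lt_of_le (chainm_lo_pos θ hθ1 M lo hlo)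
    (chainm_S_lower u m hu θ hθ1 hθ w hwm lo hi hlo hwlo hwhi κ G)

lemma chainm_abs_log_le (hu : Continuous u) (θ : ℝ) (hθ1 : θ < 1) (hθ : ∀ s, |u s| ≤ θ) {M : ℕ}
    (w : (Fin n → ℝ) → ℝ) (hwm : Measurable w) (lo hi : ℝ)
    (hlo : 0 < lo) (hwlo : ∀ y, lo ≤ w y) (hwhi : ∀ y, w y ≤ hi) (κ G : Fin M → Fin n → ℝ) :
    |Real.log (chainmS u m w κ G)| ≤
      |Real.log (lo * (1 - θ) ^ M)| + |Real.log (hi * (1 + θ) ^ M)| := by
  have h1 := Real.log_le_log (chainm_lo_pos θ hθ1 M lo hlo)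
    (chainm_S_lower u m hu θ hθ1 hθ w hwm lo hi hlo hwlo hwhi κ G)
  have h2 := Real.log_le_log (chainm_S_pos u m hu θ hθ1 hθ w hwm lo hi hlo hwlo hwhi κ G)
    (chainm_S_upper u m hu θ hθ1 hθ w hwm lo hi hlo hwlo hwhi κ G)
  have h3 := neg_abs_le (Real.log (lo * (1 - θ) ^ M))
  have h4 := le_abs_self (Real.log (hi * (1 + θ) ^ M))
  have h5 := abs_nonneg (Real.log (lo * (1 - θ) ^ M))
  have h6 := abs_nonneg (Real.log (hi * (1 + θ) ^ M))
  rw [abs_le]
  constructor
  · linarith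
  · linarith

omit [IsProbabilityMeasure m] in
lemma chainm_measurable_S (hu : Continuous u) [SFinite m] {M : ℕ} (w : (Fin n → ℝ) → ℝ)
    (hwm : Measurable w) (κ : Fin M → Fin n → ℝ) :
    Measurable (fun G : Fin M → Fin n → ℝ => chainmS u m w κ G) := by
  unfold chainmS
  exact ((chainm_measurable_integrand u hu w hwm κ).stronglyMeasurable.integral_prod_right'
    (ν := m)).measurable

lemma chainm_integrable_log_S (hu : Continuous u) (θ : ℝ) (hθ1 : θ < 1) (hθ : ∀ s, |u s| ≤ θ)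
    {M : ℕ} (w : (Fin n → ℝ) → ℝ) (hwm : Measurable w) (lo hi : ℝ)
    (hlo : 0 < lo) (hwlo : ∀ y, lo ≤ w y) (hwhi : ∀ y, w y ≤ hi) (κ : Fin M → Fin n → ℝ)
    (μ : Measure (Fin M → Fin n → ℝ)) [IsFiniteMeasure μ] :
    Integrable (fun G => Real.log (chainmS u m w κ G)) μ :=
  Integrable.of_bound
    (Real.measurable_log.comp (chainm_measurable_S u m hu w hwm κ)).aestronglyMeasurable
    (|Real.log (lo * (1 - θ) ^ M)| + |Real.log (hi * (1 + θ) ^ M)|)
    (Filter.Eventually.of_forall fun G => by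
      rw [Real.norm_eq_abs]
      exact chainm_abs_log_le u m hu θ hθ1 hθ w hwm lo hi hlo hwlo hwhi κ G)

omit [IsProbabilityMeasure m] in
/-- splitting off the first pattern: it becomes part of the weight -/
lemma chainm_S_cons {M : ℕ} (w : (Fin n → ℝ) → ℝ) (c : Fin n → ℝ) (κ' : Fin M → Fin n → ℝ)
    (g : Fin n → ℝ) (G' : Fin M → Fin n → ℝ) :
    chainmS u m w (Fin.cons c κ' : Fin (M + 1) → Fin n → ℝ)
        (Fin.cons g G' : Fin (M + 1) → Fin n → ℝ) =
      chainmS u m (fun y => w y * chainmT u c g y) κ' G' := by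
  unfold chainmS
  refine integral_congr_ae (Filter.Eventually.of_forall fun y => ?_)
  show w y * ∏ a, chainmT u ((Fin.cons c κ' : Fin (M + 1) → Fin n → ℝ) a)
      ((Fin.cons g G' : Fin (M + 1) → Fin n → ℝ) a) y
    = w y * chainmT u c g y * ∏ a, chainmT u (κ' a) (G' a) y
  rw [Fin.prod_univ_succ]
  simp only [Fin.cons_zero, Fin.cons_succ]
  rw [mul_assoc]

omit [IsProbabilityMeasure m] in
/-- the first pattern as the last factor -/
lemma chainm_S_regroup {M : ℕ} (w : (Fin n → ℝ) → ℝ) (c : Fin n → ℝ)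
    (κ' : Fin M → Fin n → ℝ) (g : Fin n → ℝ) (G' : Fin M → Fin n → ℝ) :
    chainmS u m (fun y => w y * chainmT u c g y) κ' G' =
      ∫ y, (w y * ∏ a, chainmT u (κ' a) (G' a) y) * chainmT u c g y ∂m := by
  unfold chainmS
  refine integral_congr_ae (Filter.Eventually.of_forall fun y => ?_)
  show w y * chainmT u c g y * ∏ a, chainmT u (κ' a) (G' a) y
    = (w y * ∏ a, chainmT u (κ' a) (G' a) y) * chainmT u c g y
  ring

/-- the logarithm of the partition function with the first pattern split off -/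
noncomputable def chainmD {M : ℕ} (m : Measure (Fin n → ℝ)) (w : (Fin n → ℝ) → ℝ)
    (c : Fin n → ℝ) (κ' : Fin M → Fin n → ℝ) (z : (Fin n → ℝ) × (Fin M → Fin n → ℝ)) : ℝ :=
  Real.log (chainmS u m (fun y => w y * chainmT u c z.1 y) κ' z.2)

lemma chainm_integrable_D (hu : Continuous u) (θ : ℝ) (hθ1 : θ < 1) (hθ : ∀ s, |u s| ≤ θ)
    {M : ℕ} (w : (Fin n → ℝ) → ℝ) (hwm : Measurable w) (lo hi : ℝ)
    (hlo : 0 < lo) (hwlo : ∀ y, lo ≤ w y) (hwhi : ∀ y, w y ≤ hi) (c : Fin n → ℝ)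
    (κ' : Fin M → Fin n → ℝ) :
    Integrable (chainmD u m w c κ')
      ((gauss n).prod (Measure.pi (fun _ : Fin M => gauss n))) := by
  have h := chain_integrable_pi_succ (gauss n) M _
    (chainm_integrable_log_S u m hu θ hθ1 hθ w hwm lo hi hlo hwlo hwhi
      (Fin.cons c κ' : Fin (M + 1) → Fin n → ℝ)
      (Measure.pi (fun _ : Fin (M + 1) => gauss n)))
  have h2 : (fun z : (Fin n → ℝ) × (Fin M → Fin n → ℝ) =>
      Real.log (chainmS u m w (Fin.cons c κ' : Fin (M + 1) → Fin n → ℝ)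
        (Fin.cons z.1 z.2 : Fin (M + 1) → Fin n → ℝ))) = chainmD u m w c κ' := by
    funext z
    unfold chainmD
    rw [chainm_S_cons]
  rw [h2] at h
  exact h

omit [IsProbabilityMeasure m] in
lemma chainm_integral_D {M : ℕ} (w : (Fin n → ℝ) → ℝ) (c : Fin n → ℝ)
    (κ' : Fin M → Fin n → ℝ) :
    ∫ G, Real.log (chainmS u m w (Fin.cons c κ' : Fin (M + 1) → Fin n → ℝ) G)
        ∂(Measure.pi (fun _ : Fin (M + 1) => gauss n)) =
      ∫ z, chainmD u m w c κ' z ∂((gauss n).prod (Measure.pi (fun _ : Fin M => gauss n))) := by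
  rw [chain_integral_pi_succ (gauss n) M]
  refine integral_congr_ae (Filter.Eventually.of_forall (fun z => ?_))
  show Real.log _ = chainmD u m w c κ' z
  unfold chainmD
  rw [chainm_S_cons]

/-- the patterns other than the first one are replaced, using the induction hypothesis -/
lemma chainm_step_B (hu : Continuous u) (θ : ℝ) (hθ1 : θ < 1) (hθ : ∀ s, |u s| ≤ θ)
    (c0 c1 c2 : Fin n → ℝ) (p : ℝ) (hp0 : 0 ≤ p) (hp1 : p ≤ 1) (M : ℕ)
    (ih : ∀ (w : (Fin n → ℝ) → ℝ), Measurable w → ∀ lo hi : ℝ, 0 < lo → (∀ y, lo ≤ w y) →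
      (∀ y, w y ≤ hi) →
      ∫ β, (∫ G, Real.log (chainmS u m w (fun a : Fin M => if β a then c1 else c2) G)
          ∂(Measure.pi (fun _ : Fin M => gauss n))) ∂(Measure.pi (fun _ : Fin M => bern p))
        ≤ ∫ G, Real.log (chainmS u m w (fun _ : Fin M => c0) G)
          ∂(Measure.pi (fun _ : Fin M => gauss n)))
    (w : (Fin n → ℝ) → ℝ) (hwm : Measurable w) (lo hi : ℝ)
    (hlo : 0 < lo) (hwlo : ∀ y, lo ≤ w y) (hwhi : ∀ y, w y ≤ hi) (c : Fin n → ℝ) :
    ∫ β', (∫ G, Real.log (chainmS u m w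
        (Fin.cons c (fun a : Fin M => if β' a then c1 else c2) : Fin (M + 1) → Fin n → ℝ) G)
          ∂(Measure.pi (fun _ : Fin (M + 1) => gauss n)))
        ∂(Measure.pi (fun _ : Fin M => bern p))
      ≤ ∫ z, chainmD u m w c (fun _ : Fin M => c0) z
        ∂((gauss n).prod (Measure.pi (fun _ : Fin M => gauss n))) := by
  have hprob := chain_bern_prob p hp0 hp1
  have hD := fun κ' : Fin M → Fin n → ℝ =>
    chainm_integrable_D u m hu θ hθ1 hθ w hwm lo hi hlo hwlo hwhi c κ'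
  have h1 : ∀ β' : Fin M → Bool, (∫ G, Real.log (chainmS u m w
      (Fin.cons c (fun a : Fin M => if β' a then c1 else c2) : Fin (M + 1) → Fin n → ℝ) G)
        ∂(Measure.pi (fun _ : Fin (M + 1) => gauss n))) =
      ∫ g, (∫ G', chainmD u m w c (fun a : Fin M => if β' a then c1 else c2) (g, G')
        ∂(Measure.pi (fun _ : Fin M => gauss n))) ∂(gauss n) := by
    intro β'
    rw [chainm_integral_D, integral_prod _ (hD _)]
  simp only [h1]
  rw [chain_fin_swap (Measure.pi (fun _ : Fin M => bern p)) (gauss n)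
    (fun β' g => ∫ G', chainmD u m w c (fun a : Fin M => if β' a then c1 else c2) (g, G')
      ∂(Measure.pi (fun _ : Fin M => gauss n)))
    (fun β' => (hD _).integral_prod_left)]
  rw [integral_prod _ (hD _)]
  refine integral_mono (chain_fin_integrable _ _ _
    (fun β' => (hD _).integral_prod_left))
    (hD _).integral_prod_left (fun g => ?_)
  have hTm : Measurable (fun y : Fin n → ℝ => w y * chainmT u c g y) := by
    have h2 : Continuous (fun y : Fin n → ℝ => chainmT u c g y) := by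
      unfold chainmT
      fun_prop
    exact hwm.mul h2.measurable
  exact ih (fun y => w y * chainmT u c g y) hTm (lo * (1 - θ)) (hi * (1 + θ))
    (mul_pos hlo (by linarith))
    (fun y => mul_le_mul (hwlo y) (one_sub_u_lower u θ hθ _) (by linarith)
      (le_trans hlo.le (hwlo y)))
    (fun y => mul_le_mul (hwhi y) (one_sub_u_upper u θ hθ _)
      (chainm_T_pos u θ hθ1 hθ c g y).le (le_trans (le_trans hlo.le (hwlo y)) (hwhi y)))

/-- the first pattern is replaced, using the one-pattern inequality -/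
lemma chainm_step_C (hu : Continuous u) (θ : ℝ) (hθ1 : θ < 1) (hθ : ∀ s, |u s| ≤ θ)
    (c0 c1 c2 : Fin n → ℝ) (p : ℝ)
    (hL : ∀ w : (Fin n → ℝ) → ℝ, Measurable w → ∀ lo hi : ℝ, 0 < lo → (∀ y, lo ≤ w y) →
      (∀ y, w y ≤ hi) →
      p * ∫ g, Real.log (∫ y, w y * chainmT u c1 g y ∂m) ∂(gauss n)
        + (1 - p) * ∫ g, Real.log (∫ y, w y * chainmT u c2 g y ∂m) ∂(gauss n)
      ≤ ∫ g, Real.log (∫ y, w y * chainmT u c0 g y ∂m) ∂(gauss n))
    (M : ℕ) (w : (Fin n → ℝ) → ℝ) (hwm : Measurable w) (lo hi : ℝ)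
    (hlo : 0 < lo) (hwlo : ∀ y, lo ≤ w y) (hwhi : ∀ y, w y ≤ hi) :
    p * ∫ z, chainmD u m w c1 (fun _ : Fin M => c0) z
          ∂((gauss n).prod (Measure.pi (fun _ : Fin M => gauss n))) +
        (1 - p) * ∫ z, chainmD u m w c2 (fun _ : Fin M => c0) z
          ∂((gauss n).prod (Measure.pi (fun _ : Fin M => gauss n)))
      ≤ ∫ z, chainmD u m w c0 (fun _ : Fin M => c0) z
          ∂((gauss n).prod (Measure.pi (fun _ : Fin M => gauss n))) := by
  have hD := fun c =>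
    chainm_integrable_D u m hu θ hθ1 hθ w hwm lo hi hlo hwlo hwhi c (fun _ : Fin M => c0)
  have e1 : p * ∫ z, chainmD u m w c1 (fun _ : Fin M => c0) z
          ∂((gauss n).prod (Measure.pi (fun _ : Fin M => gauss n))) +
        (1 - p) * ∫ z, chainmD u m w c2 (fun _ : Fin M => c0) z
          ∂((gauss n).prod (Measure.pi (fun _ : Fin M => gauss n))) =
      ∫ G', (p * ∫ g, chainmD u m w c1 (fun _ : Fin M => c0) (g, G') ∂(gauss n) +
        (1 - p) * ∫ g, chainmD u m w c2 (fun _ : Fin M => c0) (g, G') ∂(gauss n))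
        ∂(Measure.pi (fun _ : Fin M => gauss n)) := by
    rw [integral_add ((hD c1).integral_prod_right.const_mul p)
      ((hD c2).integral_prod_right.const_mul (1 - p)), integral_const_mul, integral_const_mul,
      integral_prod_symm _ (hD c1), integral_prod_symm _ (hD c2)]
  rw [e1, integral_prod_symm _ (hD c0)]
  refine integral_mono (((hD c1).integral_prod_right.const_mul p).add
    ((hD c2).integral_prod_right.const_mul (1 - p))) (hD c0).integral_prod_right (fun G' => ?_)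
  have key : ∀ c : Fin n → ℝ,
      (fun g : Fin n → ℝ => chainmD u m w c (fun _ : Fin M => c0) (g, G')) =
        fun g => Real.log (∫ y, (w y * ∏ a, chainmT u c0 (G' a) y) * chainmT u c g y ∂m) := by
    intro c
    funext g
    unfold chainmD
    rw [chainm_S_regroup]
  show p * ∫ g, chainmD u m w c1 (fun _ : Fin M => c0) (g, G') ∂(gauss n) +
      (1 - p) * ∫ g, chainmD u m w c2 (fun _ : Fin M => c0) (g, G') ∂(gauss n) ≤
    ∫ g, chainmD u m w c0 (fun _ : Fin M => c0) (g, G') ∂(gauss n)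
  rw [key c1, key c2, key c0]
  exact hL (fun y => w y * ∏ a, chainmT u c0 (G' a) y)
    (chainm_measurable_integrand_right u hu w hwm (fun _ : Fin M => c0) G')
    (lo * (1 - θ) ^ M) (hi * (1 + θ) ^ M) (chainm_lo_pos θ hθ1 M lo hlo)
    (fun y => mul_le_mul (hwlo y) (chainm_prod_lower u θ hθ1 hθ _ G' y)
      (pow_nonneg (by linarith) _) (le_trans hlo.le (hwlo y)))
    (fun y => mul_le_mul (hwhi y) (chainm_prod_upper u θ hθ1 hθ _ G' y)
      (chainm_prod_pos u θ hθ1 hθ _ G' y).le (le_trans (le_trans hlo.le (hwlo y)) (hwhi y)))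

/-- the chain inequality with an arbitrary bounded measurable positive weight -/
theorem chainm_main (hu : Continuous u) (θ : ℝ) (hθ1 : θ < 1) (hθ : ∀ s, |u s| ≤ θ)
    (c0 c1 c2 : Fin n → ℝ) (p : ℝ) (hp0 : 0 ≤ p) (hp1 : p ≤ 1)
    (hL : ∀ w : (Fin n → ℝ) → ℝ, Measurable w → ∀ lo hi : ℝ, 0 < lo → (∀ y, lo ≤ w y) →
      (∀ y, w y ≤ hi) →
      p * ∫ g, Real.log (∫ y, w y * chainmT u c1 g y ∂m) ∂(gauss n)
        + (1 - p) * ∫ g, Real.log (∫ y, w y * chainmT u c2 g y ∂m) ∂(gauss n)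
      ≤ ∫ g, Real.log (∫ y, w y * chainmT u c0 g y ∂m) ∂(gauss n)) :
    ∀ (M : ℕ) (w : (Fin n → ℝ) → ℝ), Measurable w → ∀ lo hi : ℝ, 0 < lo → (∀ y, lo ≤ w y) →
      (∀ y, w y ≤ hi) →
      ∫ β, (∫ G, Real.log (chainmS u m w (fun a : Fin M => if β a then c1 else c2) G)
          ∂(Measure.pi (fun _ : Fin M => gauss n))) ∂(Measure.pi (fun _ : Fin M => bern p))
        ≤ ∫ G, Real.log (chainmS u m w (fun _ : Fin M => c0) G)
          ∂(Measure.pi (fun _ : Fin M => gauss n)) := by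
  have hprob := chain_bern_prob p hp0 hp1
  intro M
  induction M with
  | zero =>
    intro w hwm lo hi hlo hwlo hwhi
    have h : ∀ β : Fin 0 → Bool,
        (∫ G, Real.log (chainmS u m w (fun a : Fin 0 => if β a then c1 else c2) G)
          ∂(Measure.pi (fun _ : Fin 0 => gauss n))) =
        ∫ G, Real.log (chainmS u m w (fun _ : Fin 0 => c0) G)
          ∂(Measure.pi (fun _ : Fin 0 => gauss n)) := by
      intro β
      refine integral_congr_ae (Filter.Eventually.of_forall (fun G => ?_))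
      show Real.log _ = Real.log _
      unfold chainmS
      simp only [Finset.univ_eq_empty, Finset.prod_empty]
    simp only [h]
    rw [integral_const, probReal_univ, one_smul]
  | succ M ih =>
    intro w hwm lo hi hlo hwlo hwhi
    rw [chain_integral_coin p hp0 hp1 M]
    simp only [chain_cons_true, chain_cons_false]
    have hB1 := chainm_step_B u m hu θ hθ1 hθ c0 c1 c2 p hp0 hp1 M ih w hwm lo hi hlo hwlo hwhi c1
    have hB2 := chainm_step_B u m hu θ hθ1 hθ c0 c1 c2 p hp0 hp1 M ih w hwm lo hi hlo hwlo hwhi c2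
    have hC := chainm_step_C u m hu θ hθ1 hθ c0 c1 c2 p hL M w hwm lo hi hlo hwlo hwhi
    have hD : ∫ G, Real.log (chainmS u m w (fun _ : Fin (M + 1) => c0) G)
          ∂(Measure.pi (fun _ : Fin (M + 1) => gauss n)) =
        ∫ z, chainmD u m w c0 (fun _ : Fin M => c0) z
          ∂((gauss n).prod (Measure.pi (fun _ : Fin M => gauss n))) := by
      rw [← chainm_integral_D, chain_cons_const]
    rw [hD]
    exact le_trans (add_le_add (mul_le_mul_of_nonneg_left hB1 hp0)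
      (mul_le_mul_of_nonneg_left hB2 (by linarith))) hC

end chainmMain

/-- `M` patterns, each acting through `c1` with probability `p` and through `c2` with
probability `1 - p`, independently, give a smaller expected logarithm of the partition function
than `M` patterns acting through `c0`, given the one-pattern inequality `hL` for arbitrary
bounded measurable positive weights; configuration law `m`. -/
theorem mixM_le_full (u : ℝ → ℝ) (hu : Continuous u) (θ : ℝ) (hθ1 : θ < 1) (hθ : ∀ s, |u s| ≤ θ)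
    {n : ℕ} (m : Measure (Fin n → ℝ)) [IsProbabilityMeasure m]
    (c0 c1 c2 : Fin n → ℝ) (p : ℝ) (hp0 : 0 ≤ p) (hp1 : p ≤ 1)
    (hL : ∀ w : (Fin n → ℝ) → ℝ, Measurable w → ∀ lo hi : ℝ, 0 < lo → (∀ y, lo ≤ w y) →
      (∀ y, w y ≤ hi) →
      p * ∫ g, Real.log (∫ y, w y * (1 - u (∑ i, g i * c1 i * y i)) ∂m) ∂(gauss n)
        + (1 - p) * ∫ g, Real.log (∫ y, w y * (1 - u (∑ i, g i * c2 i * y i)) ∂m) ∂(gauss n)
      ≤ ∫ g, Real.log (∫ y, w y * (1 - u (∑ i, g i * c0 i * y i)) ∂m) ∂(gauss n))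
    (M : ℕ) :
    ∫ β, AcM u m (fun a : Fin M => if β a then c1 else c2) ∂(Measure.pi (fun _ : Fin M => bern p))
      ≤ AcM u m (fun _ : Fin M => c0) := by
  have h := chainm_main u m hu θ hθ1 hθ c0 c1 c2 p hp0 hp1 hL M (fun _ => 1) measurable_const
    1 1 one_pos (fun _ => le_refl _) (fun _ => le_refl _)
  have hZ : ∀ (κ G : Fin M → Fin n → ℝ), chainmS u m (fun _ => 1) κ G = ZcM u m κ G := by
    intro κ G
    unfold chainmS ZcM chainmT
    simp only [one_mul]
  simp only [hZ] at h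
  exact h

end Vale.Agent.Lib.P157
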