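import Mathlib
import Vale.Agent.Lib.P157.Lim.Defs
import Vale.Agent.Lib.P157.Lim.ZcBasic
import Vale.Agent.Lib.P157.PD.Defs
import Vale.Agent.Lib.P157.PD.ZcBasic
import Vale.Agent.Lib.P157.Sph.Defs
import Vale.Agent.Lib.P157.Sph.ZcBasicM

/-!
# P157, spherical case: polar decomposition of the standard Gaussian vector

The direction `x / ‖x‖` and the norm `‖x‖` of a standard Gaussian vector are independent, and
the law of the direction is the normalised surface measure of the unit sphere.
-/

open MeasureTheory ProbabilityTheory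

namespace Vale.Agent.Lib.P157

/-- The radial profile of the density of the standard Gaussian vector. -/
noncomputable def polar_g (n : ℕ) (r : ℝ) : ENNReal :=
  ENNReal.ofReal ((Real.sqrt (2 * Real.pi))⁻¹ ^ n * Real.exp (-(r ^ 2) / 2))

lemma polar_measurable_g (n : ℕ) : Measurable (polar_g n) := by
  unfold polar_g
  fun_prop

lemma polar_prod_pdf (n : ℕ) (x : Fin n → ℝ) :
    ∏ i, gaussianPDF 0 1 (x i) = polar_g n (euclNorm x) := by
  unfold polar_g euclNorm gaussianPDF
  rw [← ENNReal.ofReal_prod_of_nonneg (fun i _ => gaussianPDFReal_nonneg _ _ _)]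
  congr 1
  simp only [gaussianPDFReal, NNReal.coe_one, mul_one, sub_zero]
  rw [Finset.prod_mul_distrib, Finset.prod_const, Finset.card_univ, Fintype.card_fin,
    ← Real.exp_sum, Real.sq_sqrt (Finset.sum_nonneg (fun i _ => sq_nonneg _))]
  congr 2
  rw [← Finset.sum_neg_distrib, Finset.sum_div]

/-- The standard Gaussian measure on `Fin n → ℝ` has a density with respect to the volume. -/
lemma polar_gauss_eq (n : ℕ) :
    gauss n = (volume : Measure (Fin n → ℝ)).withDensity (fun x => polar_g n (euclNorm x)) := by
  unfold gauss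
  refine Measure.pi_eq (fun s hs => ?_)
  rw [withDensity_apply _ (MeasurableSet.univ_pi hs), ← lintegral_indicator (MeasurableSet.univ_pi hs)]
  have h1 : ∀ x : Fin n → ℝ, (Set.pi Set.univ s).indicator (fun x => polar_g n (euclNorm x)) x
      = ENNReal.ofReal (∏ i, (s i).indicator (gaussianPDFReal 0 1) (x i)) := by
    intro x
    by_cases hx : x ∈ Set.pi Set.univ s
    · rw [Set.indicator_of_mem hx, ← polar_prod_pdf]
      have hx' : ∀ i, x i ∈ s i := fun i => hx i (Set.mem_univ i)
      simp only [gaussianPDF]
      rw [← ENNReal.ofReal_prod_of_nonneg (fun i _ => gaussianPDFReal_nonneg _ _ _)]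
      congr 1
      refine Finset.prod_congr rfl (fun i _ => ?_)
      rw [Set.indicator_of_mem (hx' i)]
    · rw [Set.indicator_of_notMem hx]
      obtain ⟨i, hi⟩ : ∃ i, x i ∉ s i := by
        by_contra hcon
        push Not at hcon
        exact hx (fun i _ => hcon i)
      symm
      rw [ENNReal.ofReal_eq_zero]
      apply le_of_eq
      apply Finset.prod_eq_zero (Finset.mem_univ i)
      rw [Set.indicator_of_notMem hi]
  simp_rw [h1]
  have hint : ∀ i : Fin n, Integrable ((s i).indicator (gaussianPDFReal 0 1)) volume :=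
    fun i => (integrable_gaussianPDFReal 0 1).indicator (hs i)
  rw [← ofReal_integral_eq_lintegral_ofReal]
  · rw [integral_fintype_prod_volume_eq_prod, ENNReal.ofReal_prod_of_nonneg]
    · refine Finset.prod_congr rfl (fun i _ => ?_)
      rw [integral_indicator (hs i), gaussianReal_apply_eq_integral _ one_ne_zero]
    · intro i _
      exact integral_nonneg (fun y => Set.indicator_nonneg (fun z _ => gaussianPDFReal_nonneg _ _ _) y)
  · exact Integrable.fintype_prod hint
  · exact Filter.Eventually.of_forall (fun x => Finset.prod_nonneg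
      (fun i _ => Set.indicator_nonneg (fun z _ => gaussianPDFReal_nonneg _ _ _) _))

/-- The chart `(ω, r) ↦ (ω, r)` from `sphere × (0, ∞)` to `(Fin n → ℝ) × ℝ`. -/
noncomputable def polar_psi (n : ℕ)
    (p : Metric.sphere (0 : EuclideanSpace ℝ (Fin n)) 1 × Set.Ioi (0 : ℝ)) : (Fin n → ℝ) × ℝ :=
  (WithLp.ofLp p.1.1, p.2.1)

lemma polar_measurable_psi (n : ℕ) : Measurable (polar_psi n) := by
  unfold polar_psi
  fun_prop

lemma polar_euclNorm_ofLp (n : ℕ) (v : EuclideanSpace ℝ (Fin n)) :
    euclNorm (WithLp.ofLp v) = ‖v‖ := by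
  unfold euclNorm
  rw [EuclideanSpace.norm_eq]
  congr 1
  refine Finset.sum_congr rfl (fun i _ => ?_)
  rw [Real.norm_eq_abs, sq_abs]

lemma polar_psi_homeo (n : ℕ) (v : ({0}ᶜ : Set (EuclideanSpace ℝ (Fin n)))) :
    polar_psi n (homeomorphUnitSphereProd (EuclideanSpace ℝ (Fin n)) v)
      = (dirv (WithLp.ofLp v.1), euclNorm (WithLp.ofLp v.1)) := by
  unfold polar_psi
  refine Prod.ext ?_ ?_
  · funext i
    simp only [homeomorphUnitSphereProd_apply_fst_coe, dirv, polar_euclNorm_ofLp]
    simp [div_eq_inv_mul]
  · simp only [homeomorphUnitSphereProd_apply_snd_coe, polar_euclNorm_ofLp]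

/-- Polar coordinates for the standard Gaussian vector, for nonnegative measurable functions. -/
lemma polar_lintegral (n : ℕ) (hn : 1 ≤ n) (K : (Fin n → ℝ) × ℝ → ENNReal) (hK : Measurable K) :
    ∫⁻ x, K (dirv x, euclNorm x) ∂(gauss n)
      = ∫⁻ p, polar_g n p.2.1 * K (polar_psi n p)
          ∂((volume : Measure (EuclideanSpace ℝ (Fin n))).toSphere.prod
              (Measure.volumeIoiPow (n - 1))) := by
  have : Nonempty (Fin n) := ⟨⟨0, hn⟩⟩
  have hKm : Measurable (fun x : Fin n → ℝ => K (dirv x, euclNorm x)) :=
    hK.comp (measurable_dirv.prodMk measurable_euclNorm)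
  have hgm : Measurable (fun x : Fin n → ℝ => polar_g n (euclNorm x)) :=
    (polar_measurable_g n).comp measurable_euclNorm
  rw [polar_gauss_eq, lintegral_withDensity_eq_lintegral_mul _ hgm hKm]
  -- transfer to the Euclidean space
  have hG : Measurable (fun v : EuclideanSpace ℝ (Fin n) =>
      polar_g n (euclNorm (WithLp.ofLp v)) * K (dirv (WithLp.ofLp v), euclNorm (WithLp.ofLp v))) := by
    have h1 : Measurable (fun v : EuclideanSpace ℝ (Fin n) => (WithLp.ofLp v : Fin n → ℝ)) := by
      fun_prop
    exact (hgm.comp h1).mul (hKm.comp h1)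
  have e1 := (PiLp.volume_preserving_toLp (Fin n)).lintegral_comp hG
  simp only [Pi.mul_apply]
  rw [e1]
  -- remove the origin
  have e3 : ∫⁻ v : EuclideanSpace ℝ (Fin n),
        polar_g n (euclNorm (WithLp.ofLp v)) * K (dirv (WithLp.ofLp v), euclNorm (WithLp.ofLp v))
      = ∫⁻ v : ({0}ᶜ : Set (EuclideanSpace ℝ (Fin n))),
        polar_g n (euclNorm (WithLp.ofLp v.1)) *
          K (dirv (WithLp.ofLp v.1), euclNorm (WithLp.ofLp v.1))
        ∂((volume : Measure (EuclideanSpace ℝ (Fin n))).comap (↑)) := by
    rw [lintegral_subtype_comap (measurableSet_singleton (0 : EuclideanSpace ℝ (Fin n))).compl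
      (fun v : EuclideanSpace ℝ (Fin n) =>
        polar_g n (euclNorm (WithLp.ofLp v)) * K (dirv (WithLp.ofLp v), euclNorm (WithLp.ofLp v))),
      restrict_compl_singleton]
  rw [e3]
  -- polar coordinates
  have hG' : Measurable (fun p : Metric.sphere (0 : EuclideanSpace ℝ (Fin n)) 1 × Set.Ioi (0 : ℝ) =>
      polar_g n p.2.1 * K (polar_psi n p)) := by
    have h2 : Measurable (fun p : Metric.sphere (0 : EuclideanSpace ℝ (Fin n)) 1 × Set.Ioi (0 : ℝ) =>
        (p.2.1 : ℝ)) := by fun_prop
    exact ((polar_measurable_g n).comp h2).mul (hK.comp (polar_measurable_psi n))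
  have e2 := ((volume : Measure (EuclideanSpace ℝ (Fin n))).measurePreserving_homeomorphUnitSphereProd).lintegral_comp hG'
  rw [finrank_euclideanSpace_fin] at e2
  rw [← e2]
  refine lintegral_congr (fun v => ?_)
  rw [polar_psi_homeo]
  simp only [homeomorphUnitSphereProd_apply_snd_coe, polar_euclNorm_ofLp]

/-- The coordinates of a point of the unit sphere. -/
noncomputable def polar_a (n : ℕ) (ω : Metric.sphere (0 : EuclideanSpace ℝ (Fin n)) 1) :
    Fin n → ℝ := WithLp.ofLp ω.1

lemma polar_measurable_a (n : ℕ) : Measurable (polar_a n) := by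
  unfold polar_a
  fun_prop

/-- The surface measure of the unit sphere. -/
noncomputable def polar_sigma (n : ℕ) : Measure (Metric.sphere (0 : EuclideanSpace ℝ (Fin n)) 1) :=
  (volume : Measure (EuclideanSpace ℝ (Fin n))).toSphere

instance polar_sigma_finite (n : ℕ) : IsFiniteMeasure (polar_sigma n) := by
  unfold polar_sigma
  infer_instance

/-- The law of the radius, up to normalisation. -/
noncomputable def polar_nu (n : ℕ) : Measure (Set.Ioi (0 : ℝ)) :=
  (Measure.volumeIoiPow (n - 1)).withDensity (fun r => polar_g n r.1)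

lemma polar_measurable_g_val (n : ℕ) : Measurable (fun r : Set.Ioi (0 : ℝ) => polar_g n r.1) :=
  (polar_measurable_g n).comp measurable_subtype_coe

instance polar_nu_sfinite (n : ℕ) : SFinite (polar_nu n) := by
  unfold polar_nu
  infer_instance

/-- The joint law of direction and norm is a product measure. -/
lemma polar_map_eq (n : ℕ) (hn : 1 ≤ n) :
    (gauss n).map (fun x => (dirv x, euclNorm x))
      = ((polar_sigma n).map (polar_a n)).prod ((polar_nu n).map Subtype.val) := by
  rw [Measure.map_prod_map _ _ (polar_measurable_a n) measurable_subtype_coe]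
  have hnu : (polar_sigma n).prod (polar_nu n)
      = ((polar_sigma n).prod (Measure.volumeIoiPow (n - 1))).withDensity
          (fun z => polar_g n z.2.1) := by
    unfold polar_nu
    rw [prod_withDensity_right (polar_measurable_g_val n)]
  rw [hnu]
  refine Measure.ext_of_lintegral _ (fun K hK => ?_)
  have hpm : Measurable (Prod.map (polar_a n) (Subtype.val : Set.Ioi (0 : ℝ) → ℝ)) :=
    (polar_measurable_a n).prodMap measurable_subtype_coe
  have hgz : Measurable (fun z : Metric.sphere (0 : EuclideanSpace ℝ (Fin n)) 1 × Set.Ioi (0 : ℝ) =>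
      polar_g n z.2.1) := (polar_measurable_g_val n).comp measurable_snd
  rw [lintegral_map hK (measurable_dirv.prodMk measurable_euclNorm), polar_lintegral n hn K hK,
    lintegral_map hK hpm]
  exact (lintegral_withDensity_eq_lintegral_mul _ hgz (hK.comp hpm)).symm

lemma polar_total (n : ℕ) (hn : 1 ≤ n) :
    (polar_sigma n) Set.univ * (polar_nu n) Set.univ = 1 := by
  have h : ((gauss n).map (fun x => (dirv x, euclNorm x))) Set.univ
      = (((polar_sigma n).map (polar_a n)).prod ((polar_nu n).map Subtype.val)) Set.univ := by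
    rw [polar_map_eq n hn]
  rw [Measure.map_apply (measurable_dirv.prodMk measurable_euclNorm) MeasurableSet.univ,
    Set.preimage_univ, measure_univ, ← Set.univ_prod_univ, Measure.prod_prod,
    Measure.map_apply (polar_measurable_a n) MeasurableSet.univ,
    Measure.map_apply measurable_subtype_coe MeasurableSet.univ, Set.preimage_univ,
    Set.preimage_univ] at h
  exact h.symm

lemma polar_map_dirv (n : ℕ) (hn : 1 ≤ n) :
    (gauss n).map dirv = ((polar_nu n) Set.univ) • (polar_sigma n).map (polar_a n) := by
  have hΦ : Measurable (fun x : Fin n → ℝ => (dirv x, euclNorm x)) :=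
    measurable_dirv.prodMk measurable_euclNorm
  have : (gauss n).map dirv = ((gauss n).map (fun x => (dirv x, euclNorm x))).map Prod.fst := by
    rw [Measure.map_map measurable_fst hΦ]
    rfl
  rw [this, polar_map_eq n hn, Measure.map_fst_prod,
    Measure.map_apply measurable_subtype_coe MeasurableSet.univ, Set.preimage_univ]

lemma polar_map_euclNorm (n : ℕ) (hn : 1 ≤ n) :
    (gauss n).map euclNorm = ((polar_sigma n) Set.univ) • (polar_nu n).map Subtype.val := by
  have hΦ : Measurable (fun x : Fin n → ℝ => (dirv x, euclNorm x)) :=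
    measurable_dirv.prodMk measurable_euclNorm
  have : (gauss n).map euclNorm
      = ((gauss n).map (fun x => (dirv x, euclNorm x))).map Prod.snd := by
    rw [Measure.map_map measurable_snd hΦ]
    rfl
  rw [this, polar_map_eq n hn, Measure.map_snd_prod,
    Measure.map_apply (polar_measurable_a n) MeasurableSet.univ, Set.preimage_univ]

/-- Direction and norm of a standard Gaussian vector are independent (measure form). -/
lemma polar_indep (n : ℕ) (hn : 1 ≤ n) :
    (gauss n).map (fun x => (dirv x, euclNorm x))
      = ((gauss n).map dirv).prod ((gauss n).map euclNorm) := by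
  rw [polar_map_dirv n hn, polar_map_euclNorm n hn, Measure.prod_smul_left,
    Measure.prod_smul_right, smul_smul, mul_comm, polar_total n hn, one_smul, polar_map_eq n hn]

/-- the direction and the norm of a standard Gaussian vector are independent -/
theorem gauss_dir_norm_indep (n : ℕ) (F : (Fin n → ℝ) × ℝ → ℝ) (hF : Measurable F) (B : ℝ)
    (hB : ∀ z, |F z| ≤ B) :
    ∫ x, F (dirv x, euclNorm x) ∂(gauss n)
      = ∫ y, (∫ x, F (dirv x, euclNorm y) ∂(gauss n)) ∂(gauss n) := by
  rcases Nat.eq_zero_or_pos n with hn | hn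
  · subst hn
    have hsub : ∀ x : Fin 0 → ℝ, x = 0 := fun x => Subsingleton.elim _ _
    have h1 : ∀ x y : Fin 0 → ℝ,
        F (dirv x, euclNorm y) = F (dirv (0 : Fin 0 → ℝ), euclNorm (0 : Fin 0 → ℝ)) := by
      intro x y
      rw [hsub x, hsub y]
    simp_rw [h1]
    simp [integral_const]
  · have hΦ : Measurable (fun x : Fin n → ℝ => (dirv x, euclNorm x)) :=
      measurable_dirv.prodMk measurable_euclNorm
    have hp1 : IsProbabilityMeasure ((gauss n).map dirv) :=
      Measure.isProbabilityMeasure_map measurable_dirv.aemeasurable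
    have hp2 : IsProbabilityMeasure ((gauss n).map euclNorm) :=
      Measure.isProbabilityMeasure_map measurable_euclNorm.aemeasurable
    have hint : Integrable F (((gauss n).map dirv).prod ((gauss n).map euclNorm)) :=
      Integrable.of_bound hF.aestronglyMeasurable B
        (Filter.Eventually.of_forall (fun z => by rw [Real.norm_eq_abs]; exact hB z))
    have hL : ∫ x, F (dirv x, euclNorm x) ∂(gauss n)
        = ∫ z, F z ∂(((gauss n).map dirv).prod ((gauss n).map euclNorm)) := by
      rw [← polar_indep n hn, integral_map hΦ.aemeasurable hF.aestronglyMeasurable]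
    have hin : ∀ b : ℝ, ∫ x, F (dirv x, b) ∂(gauss n) = ∫ a, F (a, b) ∂((gauss n).map dirv) := by
      intro b
      exact (integral_map measurable_dirv.aemeasurable
        (hF.comp measurable_prodMk_right).aestronglyMeasurable).symm
    have hH : StronglyMeasurable (fun b : ℝ => ∫ a, F (a, b) ∂((gauss n).map dirv)) :=
      hF.stronglyMeasurable.integral_prod_left'
    rw [hL, integral_prod_symm F hint, integral_map measurable_euclNorm.aemeasurable
      hH.aestronglyMeasurable]
    refine integral_congr_ae (Filter.Eventually.of_forall (fun y => ?_))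
    exact (hin (euclNorm y)).symm

/-- the law of the direction is the normalised surface measure of the unit sphere -/
theorem gauss_dir_eq_sphere (n : ℕ) (hn : 1 ≤ n) (h : (Fin n → ℝ) → ℝ) (hh : Measurable h)
    (B : ℝ) (hB : ∀ z, |h z| ≤ B) :
    ∫ x, h (dirv x) ∂(gauss n)
      = ⨍ ω : Metric.sphere (0 : EuclideanSpace ℝ (Fin n)) 1, h (fun i => ω.1 i)
          ∂((volume : Measure (EuclideanSpace ℝ (Fin n))).toSphere) := by
  have _hB := hB
  have hnu : (polar_nu n) Set.univ = ((polar_sigma n) Set.univ)⁻¹ := by
    apply ENNReal.eq_inv_of_mul_eq_one_left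
    rw [mul_comm]
    exact polar_total n hn
  rw [← integral_map measurable_dirv.aemeasurable hh.aestronglyMeasurable, polar_map_dirv n hn,
    hnu, ← Measure.map_smul, integral_map (polar_measurable_a n).aemeasurable
      hh.aestronglyMeasurable, average_eq']
  rfl

end Vale.Agent.Lib.P157
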