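import Mathlib
import Vale.Agent.Lib.P157.Lim.Defs
import Vale.Agent.Lib.P157.Lim.ZcBasic
import Vale.Agent.Lib.P157.PD.Defs
import Vale.Agent.Lib.P157.PD.ZcBasic
import Vale.Agent.Lib.P157.Sph.Defs
import Vale.Agent.Lib.P157.Sph.ZcBasicM
import Vale.Agent.Lib.P157.Sph.Polar

/-!
# P157, sphere: a uniform point of the sphere of `ℝ^(N1+N2)` as a join of two spheres

A uniform point of the unit sphere of `ℝ^(N1+N2)` is `(√ρ ω1, √(1-ρ) ω2)` with `ω1`, `ω2` uniform
on the unit spheres of `ℝ^N1`, `ℝ^N2` and `ρ` the fraction of the squared norm in the first block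
of an independent Gaussian vector.
-/

open MeasureTheory ProbabilityTheory

namespace Vale.Agent.Lib.P157

/-- the standard Gaussian measure of `ℝ^(N1+N2)` is the image of the product of the two blocks -/
lemma join_gauss_append (N1 N2 : ℕ) :
    gauss (N1 + N2)
      = ((gauss N1).prod (gauss N2)).map (fun z => (Fin.append z.1 z.2 : Fin (N1 + N2) → ℝ)) := by
  unfold gauss
  refine Measure.pi_eq (fun s hs => ?_)
  have hpre : (fun z : (Fin N1 → ℝ) × (Fin N2 → ℝ) => (Fin.append z.1 z.2 : Fin (N1 + N2) → ℝ)) ⁻¹'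
      (Set.pi Set.univ s)
      = (Set.pi Set.univ (fun i : Fin N1 => s (Fin.castAdd N2 i))) ×ˢ
        (Set.pi Set.univ (fun j : Fin N2 => s (Fin.natAdd N1 j))) := by
    ext z
    simp only [Set.mem_preimage, Set.mem_pi, Set.mem_univ, forall_true_left, Set.mem_prod]
    constructor
    · intro hz
      refine ⟨fun i => ?_, fun j => ?_⟩
      · have := hz (Fin.castAdd N2 i)
        rwa [Fin.append_left] at this
      · have := hz (Fin.natAdd N1 j)
        rwa [Fin.append_right] at this
    · rintro ⟨h1, h2⟩ i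
      refine Fin.addCases (fun j => ?_) (fun j => ?_) i
      · rw [Fin.append_left]
        exact h1 j
      · rw [Fin.append_right]
        exact h2 j
  rw [Measure.map_apply (measurable_append N1 N2) (MeasurableSet.univ_pi hs), hpre,
    Measure.prod_prod, Measure.pi_pi, Measure.pi_pi, Fin.prod_univ_add]

/-- the squared Euclidean norm is the sum of the squares -/
lemma join_euclNorm_sq {n : ℕ} (x : Fin n → ℝ) : euclNorm x ^ 2 = ∑ i, x i ^ 2 := by
  unfold euclNorm
  exact Real.sq_sqrt (Finset.sum_nonneg (fun i _ => sq_nonneg _))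

lemma join_euclNorm_nonneg {n : ℕ} (x : Fin n → ℝ) : 0 ≤ euclNorm x := Real.sqrt_nonneg _

/-- a vector of Euclidean norm zero has all coordinates zero -/
lemma join_eq_zero_of_euclNorm {n : ℕ} (x : Fin n → ℝ) (hx : euclNorm x = 0) (i : Fin n) :
    x i = 0 := by
  have h0 : ∑ i, x i ^ 2 = 0 := by
    rw [← join_euclNorm_sq, hx]
    norm_num
  have h1 := (Finset.sum_eq_zero_iff_of_nonneg (fun i _ => sq_nonneg (x i))).mp h0 i
    (Finset.mem_univ i)
  exact pow_eq_zero_iff (two_ne_zero) |>.mp h1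

/-- the squared norm of a concatenation -/
lemma join_euclNorm_append_sq {N1 N2 : ℕ} (x1 : Fin N1 → ℝ) (x2 : Fin N2 → ℝ) :
    euclNorm (Fin.append x1 x2 : Fin (N1 + N2) → ℝ) ^ 2 = euclNorm x1 ^ 2 + euclNorm x2 ^ 2 := by
  rw [join_euclNorm_sq, join_euclNorm_sq, join_euclNorm_sq, Fin.sum_univ_add]
  simp only [Fin.append_left, Fin.append_right]

/-- the fraction of the squared norm in the first block -/
noncomputable def join_R (r1 r2 : ℝ) : ℝ := r1 ^ 2 / (r1 ^ 2 + r2 ^ 2)

lemma join_rhoFrac_append {N1 N2 : ℕ} (y1 : Fin N1 → ℝ) (y2 : Fin N2 → ℝ) :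
    rhoFrac N1 N2 (Fin.append y1 y2) = join_R (euclNorm y1) (euclNorm y2) := by
  unfold rhoFrac join_R
  rw [← join_euclNorm_sq (Fin.append y1 y2 : Fin (N1 + N2) → ℝ), join_euclNorm_append_sq,
    join_euclNorm_sq y1]
  simp only [Fin.append_left]

/-- the direction of a concatenation -/
lemma join_dirv_append {N1 N2 : ℕ} (x1 : Fin N1 → ℝ) (x2 : Fin N2 → ℝ) :
    dirv (Fin.append x1 x2 : Fin (N1 + N2) → ℝ)
      = fun i => cRho N1 N2 (join_R (euclNorm x1) (euclNorm x2)) i
          * (Fin.append (dirv x1) (dirv x2) : Fin (N1 + N2) → ℝ) i := by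
  have hr1 := join_euclNorm_nonneg x1
  have hr2 := join_euclNorm_nonneg x2
  have hr := join_euclNorm_nonneg (Fin.append x1 x2 : Fin (N1 + N2) → ℝ)
  have hsq := join_euclNorm_append_sq x1 x2
  set r1 := euclNorm x1 with hr1d
  set r2 := euclNorm x2 with hr2d
  set r := euclNorm (Fin.append x1 x2 : Fin (N1 + N2) → ℝ) with hrd
  have hrr : Real.sqrt (r1 ^ 2 + r2 ^ 2) = r := by
    rw [← hsq, Real.sqrt_sq hr]
  funext i
  refine Fin.addCases (fun j => ?_) (fun j => ?_) i
  · simp only [dirv, cRho, Fin.append_left]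
    rw [← hrd, ← hr1d]
    unfold join_R
    rw [Real.sqrt_div (sq_nonneg r1), Real.sqrt_sq hr1, hrr]
    by_cases h1 : r1 = 0
    · have hx : x1 j = 0 := join_eq_zero_of_euclNorm x1 h1 j
      rw [hx]
      simp
    · field_simp
  · simp only [dirv, cRho, Fin.append_right]
    rw [← hrd, ← hr2d]
    unfold join_R
    by_cases h2 : r2 = 0
    · have hx : x2 j = 0 := join_eq_zero_of_euclNorm x2 h2 j
      rw [hx]
      simp
    · have hpos : 0 < r1 ^ 2 + r2 ^ 2 := by positivity
      have h1R : 1 - r1 ^ 2 / (r1 ^ 2 + r2 ^ 2) = r2 ^ 2 / (r1 ^ 2 + r2 ^ 2) := by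
        field_simp
        ring
      rw [h1R, Real.sqrt_div (sq_nonneg r2), Real.sqrt_sq hr2, hrr]
      field_simp

/-- the integrand in polar coordinates of the two blocks -/
noncomputable def join_H (N1 N2 : ℕ) (h : (Fin (N1 + N2) → ℝ) → ℝ)
    (q : ((Fin N1 → ℝ) × ℝ) × ((Fin N2 → ℝ) × ℝ)) : ℝ :=
  h (fun i => cRho N1 N2 (join_R q.1.2 q.2.2) i
    * (Fin.append q.1.1 q.2.1 : Fin (N1 + N2) → ℝ) i)

lemma join_measurable_H (N1 N2 : ℕ) (h : (Fin (N1 + N2) → ℝ) → ℝ) (hh : Measurable h) :
    Measurable (join_H N1 N2 h) := by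
  unfold join_H
  refine hh.comp (measurable_pi_lambda _ (fun i => ?_))
  have hR : Measurable (fun q : ((Fin N1 → ℝ) × ℝ) × ((Fin N2 → ℝ) × ℝ) =>
      join_R q.1.2 q.2.2) := by
    unfold join_R
    fun_prop
  have hc : Measurable (fun q : ((Fin N1 → ℝ) × ℝ) × ((Fin N2 → ℝ) × ℝ) =>
      cRho N1 N2 (join_R q.1.2 q.2.2) i) :=
    (measurable_pi_apply i).comp ((measurable_cRho N1 N2).comp hR)
  have hp : Measurable (fun q : ((Fin N1 → ℝ) × ℝ) × ((Fin N2 → ℝ) × ℝ) =>
      (q.1.1, q.2.1)) := by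
    fun_prop
  have ha : Measurable (fun q : ((Fin N1 → ℝ) × ℝ) × ((Fin N2 → ℝ) × ℝ) =>
      (Fin.append q.1.1 q.2.1 : Fin (N1 + N2) → ℝ) i) :=
    (measurable_pi_apply i).comp ((measurable_append N1 N2).comp hp)
  exact hc.mul ha

/-- bounded measurable functions are integrable for finite measures -/
lemma join_integrable {α : Type*} [MeasurableSpace α] (μ : Measure α) [IsFiniteMeasure μ]
    (f : α → ℝ) (hf : StronglyMeasurable f) (B : ℝ) (hB : ∀ a, |f a| ≤ B) : Integrable f μ :=
  Integrable.of_bound hf.aestronglyMeasurable B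
    (Filter.Eventually.of_forall (fun z => by rw [Real.norm_eq_abs]; exact hB z))

/-- the integral of a bounded function for a probability measure is bounded -/
lemma join_abs_integral_le {α : Type*} [MeasurableSpace α] (μ : Measure α)
    [IsProbabilityMeasure μ] (f : α → ℝ) (B : ℝ) (hB : ∀ a, |f a| ≤ B) :
    |∫ a, f a ∂μ| ≤ B := by
  have h := norm_integral_le_of_norm_le_const (μ := μ) (f := f) (C := B)
    (Filter.Eventually.of_forall (fun z => by rw [Real.norm_eq_abs]; exact hB z))
  rw [Real.norm_eq_abs] at h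
  simpa using h

/-- the integral over the join of two spheres, written with Gaussian vectors -/
lemma join_inner (N1 N2 : ℕ) (h : (Fin (N1 + N2) → ℝ) → ℝ) (hh : Measurable h) (B : ℝ)
    (hB : ∀ z, |h z| ≤ B) (c : Fin (N1 + N2) → ℝ) :
    ∫ z, h (fun i => c i * z i) ∂(joinLaw (sphLaw N1) (sphLaw N2))
      = ∫ x1, (∫ x2, h (fun i => c i
          * (Fin.append (dirv x1) (dirv x2) : Fin (N1 + N2) → ℝ) i) ∂(gauss N2)) ∂(gauss N1) := by
  have hc : Measurable (fun z : Fin (N1 + N2) → ℝ => h (fun i => c i * z i)) := by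
    refine hh.comp (measurable_pi_lambda _ (fun i => ?_))
    have hz : Measurable (fun z : Fin (N1 + N2) → ℝ => z i) := measurable_pi_apply i
    exact hz.const_mul (c i)
  have hd : Measurable (Prod.map (dirv (n := N1)) (dirv (n := N2))) :=
    measurable_dirv.prodMap measurable_dirv
  have hca : Measurable (fun w : (Fin N1 → ℝ) × (Fin N2 → ℝ) =>
      h (fun i => c i * (Fin.append w.1 w.2 : Fin (N1 + N2) → ℝ) i)) :=
    hc.comp (measurable_append N1 N2)
  unfold joinLaw sphLaw
  rw [integral_map (measurable_append N1 N2).aemeasurable hc.aestronglyMeasurable,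
    Measure.map_prod_map _ _ measurable_dirv measurable_dirv,
    integral_map hd.aemeasurable hca.aestronglyMeasurable]
  have hint : Integrable (fun p : (Fin N1 → ℝ) × (Fin N2 → ℝ) =>
      h (fun i => c i * (Fin.append (Prod.map dirv dirv p).1 (Prod.map dirv dirv p).2 :
        Fin (N1 + N2) → ℝ) i)) ((gauss N1).prod (gauss N2)) :=
    join_integrable _ _ (hca.comp hd).stronglyMeasurable B (fun p => hB _)
  rw [integral_prod _ hint]
  rfl

/-- the main exchange: independence of direction and norm in each block, and Fubini -/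
lemma join_exchange (N1 N2 : ℕ) (H : ((Fin N1 → ℝ) × ℝ) × ((Fin N2 → ℝ) × ℝ) → ℝ)
    (hH : Measurable H) (B : ℝ) (hB : ∀ q, |H q| ≤ B) :
    ∫ x1, (∫ x2, H ((dirv x1, euclNorm x1), (dirv x2, euclNorm x2)) ∂(gauss N2)) ∂(gauss N1)
      = ∫ y1, (∫ y2, (∫ x1, (∫ x2, H ((dirv x1, euclNorm y1), (dirv x2, euclNorm y2))
          ∂(gauss N2)) ∂(gauss N1)) ∂(gauss N2)) ∂(gauss N1) := by
  -- step 1: independence in the second block
  have h1 : ∀ x1 : Fin N1 → ℝ,
      ∫ x2, H ((dirv x1, euclNorm x1), (dirv x2, euclNorm x2)) ∂(gauss N2)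
        = ∫ y2, (∫ x2, H ((dirv x1, euclNorm x1), (dirv x2, euclNorm y2)) ∂(gauss N2))
            ∂(gauss N2) := by
    intro x1
    exact gauss_dir_norm_indep N2 (fun q => H ((dirv x1, euclNorm x1), q))
      (hH.comp measurable_prodMk_left) B (fun q => hB _)
  simp_rw [h1]
  -- the function of the first block
  have hI : StronglyMeasurable (fun p : ((Fin N1 → ℝ) × ℝ) × (Fin N2 → ℝ) =>
      ∫ x2, H (p.1, (dirv x2, euclNorm p.2)) ∂(gauss N2)) := by
    have hf : Measurable (fun p : (((Fin N1 → ℝ) × ℝ) × (Fin N2 → ℝ)) × (Fin N2 → ℝ) =>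
        H (p.1.1, (dirv p.2, euclNorm p.1.2))) := by
      refine hH.comp ?_
      have hd := measurable_dirv (n := N2)
      have he := measurable_euclNorm (n := N2)
      fun_prop
    exact hf.stronglyMeasurable.integral_prod_right'
  have hG : StronglyMeasurable (fun q1 : (Fin N1 → ℝ) × ℝ =>
      ∫ y2, (∫ x2, H (q1, (dirv x2, euclNorm y2)) ∂(gauss N2)) ∂(gauss N2)) :=
    hI.integral_prod_right'
  have hGB : ∀ q1 : (Fin N1 → ℝ) × ℝ,
      |∫ y2, (∫ x2, H (q1, (dirv x2, euclNorm y2)) ∂(gauss N2)) ∂(gauss N2)| ≤ B := by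
    intro q1
    exact join_abs_integral_le _ _ B (fun y2 => join_abs_integral_le _ _ B (fun x2 => hB _))
  -- step 2: independence in the first block
  have h2 := gauss_dir_norm_indep N1 (fun q1 : (Fin N1 → ℝ) × ℝ =>
      ∫ y2, (∫ x2, H (q1, (dirv x2, euclNorm y2)) ∂(gauss N2)) ∂(gauss N2))
    hG.measurable B hGB
  rw [h2]
  -- step 3: Fubini for each y1
  refine integral_congr_ae (Filter.Eventually.of_forall (fun y1 => ?_))
  have hJ : StronglyMeasurable (fun p : (Fin N1 → ℝ) × (Fin N2 → ℝ) =>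
      ∫ x2, H ((dirv p.1, euclNorm y1), (dirv x2, euclNorm p.2)) ∂(gauss N2)) := by
    have hf : Measurable (fun p : ((Fin N1 → ℝ) × (Fin N2 → ℝ)) × (Fin N2 → ℝ) =>
        H ((dirv p.1.1, euclNorm y1), (dirv p.2, euclNorm p.1.2))) := by
      refine hH.comp ?_
      have hd1 := measurable_dirv (n := N1)
      have hd := measurable_dirv (n := N2)
      have he := measurable_euclNorm (n := N2)
      fun_prop
    exact hf.stronglyMeasurable.integral_prod_right'
  have hJint : Integrable (Function.uncurry (fun (x1 : Fin N1 → ℝ) (y2 : Fin N2 → ℝ) =>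
      ∫ x2, H ((dirv x1, euclNorm y1), (dirv x2, euclNorm y2)) ∂(gauss N2)))
      ((gauss N1).prod (gauss N2)) :=
    join_integrable _ _ hJ B (fun p => join_abs_integral_le _ _ B (fun x2 => hB _))
  exact integral_integral_swap hJint

/-- a uniform point of the sphere of `ℝ^(N1+N2)` as a Beta-weighted join of two spheres -/
theorem sphLaw_join (N1 N2 : ℕ) (h : (Fin (N1 + N2) → ℝ) → ℝ) (hh : Measurable h) (B : ℝ)
    (hB : ∀ z, |h z| ≤ B) :
    ∫ z, h z ∂(sphLaw (N1 + N2))
      = ∫ y, (∫ z, h (fun i => cRho N1 N2 (rhoFrac N1 N2 y) i * z i)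
          ∂(joinLaw (sphLaw N1) (sphLaw N2))) ∂(gauss (N1 + N2)) := by
  have hH := join_measurable_H N1 N2 h hh
  have hHB : ∀ q, |join_H N1 N2 h q| ≤ B := fun q => hB _
  -- the left side
  have hL : ∫ z, h z ∂(sphLaw (N1 + N2))
      = ∫ x1, (∫ x2, join_H N1 N2 h ((dirv x1, euclNorm x1), (dirv x2, euclNorm x2))
          ∂(gauss N2)) ∂(gauss N1) := by
    have hhd : Measurable (fun x : Fin (N1 + N2) → ℝ => h (dirv x)) := hh.comp measurable_dirv
    unfold sphLaw
    rw [integral_map measurable_dirv.aemeasurable hh.aestronglyMeasurable, join_gauss_append,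
      integral_map (measurable_append N1 N2).aemeasurable hhd.aestronglyMeasurable]
    have hint : Integrable (fun p : (Fin N1 → ℝ) × (Fin N2 → ℝ) =>
        h (dirv (Fin.append p.1 p.2 : Fin (N1 + N2) → ℝ))) ((gauss N1).prod (gauss N2)) :=
      join_integrable _ _ (hhd.comp (measurable_append N1 N2)).stronglyMeasurable B
        (fun p => hB _)
    rw [integral_prod _ hint]
    refine integral_congr_ae (Filter.Eventually.of_forall (fun x1 => ?_))
    refine integral_congr_ae (Filter.Eventually.of_forall (fun x2 => ?_))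
    show h (dirv (Fin.append x1 x2 : Fin (N1 + N2) → ℝ)) = _
    rw [join_dirv_append]
    rfl
  -- the right side
  have hR : ∫ y, (∫ z, h (fun i => cRho N1 N2 (rhoFrac N1 N2 y) i * z i)
        ∂(joinLaw (sphLaw N1) (sphLaw N2))) ∂(gauss (N1 + N2))
      = ∫ y1, (∫ y2, (∫ x1, (∫ x2,
          join_H N1 N2 h ((dirv x1, euclNorm y1), (dirv x2, euclNorm y2))
          ∂(gauss N2)) ∂(gauss N1)) ∂(gauss N2)) ∂(gauss N1) := by
    have hin : ∀ y : Fin (N1 + N2) → ℝ,
        ∫ z, h (fun i => cRho N1 N2 (rhoFrac N1 N2 y) i * z i)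
          ∂(joinLaw (sphLaw N1) (sphLaw N2))
        = ∫ x1, (∫ x2, h (fun i => cRho N1 N2 (rhoFrac N1 N2 y) i
            * (Fin.append (dirv x1) (dirv x2) : Fin (N1 + N2) → ℝ) i) ∂(gauss N2))
            ∂(gauss N1) :=
      fun y => join_inner N1 N2 h hh B hB _
    simp_rw [hin]
    -- measurability in y of the inner double integral
    have hm : StronglyMeasurable (fun y : Fin (N1 + N2) → ℝ =>
        ∫ x1, (∫ x2, h (fun i => cRho N1 N2 (rhoFrac N1 N2 y) i
            * (Fin.append (dirv x1) (dirv x2) : Fin (N1 + N2) → ℝ) i) ∂(gauss N2))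
            ∂(gauss N1)) := by
      have hf : Measurable (fun p : ((Fin (N1 + N2) → ℝ) × (Fin N1 → ℝ)) × (Fin N2 → ℝ) =>
          h (fun i => cRho N1 N2 (rhoFrac N1 N2 p.1.1) i
            * (Fin.append (dirv p.1.2) (dirv p.2) : Fin (N1 + N2) → ℝ) i)) := by
        refine hh.comp (measurable_pi_lambda _ (fun i => ?_))
        have hc : Measurable (fun p : ((Fin (N1 + N2) → ℝ) × (Fin N1 → ℝ)) × (Fin N2 → ℝ) =>
            cRho N1 N2 (rhoFrac N1 N2 p.1.1) i) :=
          (measurable_pi_apply i).comp ((measurable_cRho N1 N2).comp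
            ((measurable_rhoFrac N1 N2).comp (measurable_fst.comp measurable_fst)))
        have hp : Measurable (fun p : ((Fin (N1 + N2) → ℝ) × (Fin N1 → ℝ)) × (Fin N2 → ℝ) =>
            (dirv p.1.2, dirv p.2)) :=
          (measurable_dirv.comp (measurable_snd.comp measurable_fst)).prodMk
            (measurable_dirv.comp measurable_snd)
        have ha : Measurable (fun p : ((Fin (N1 + N2) → ℝ) × (Fin N1 → ℝ)) × (Fin N2 → ℝ) =>
            (Fin.append (dirv p.1.2) (dirv p.2) : Fin (N1 + N2) → ℝ) i) :=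
          (measurable_pi_apply i).comp ((measurable_append N1 N2).comp hp)
        exact hc.mul ha
      exact hf.stronglyMeasurable.integral_prod_right'.integral_prod_right'
    rw [join_gauss_append, integral_map (measurable_append N1 N2).aemeasurable
      hm.aestronglyMeasurable]
    have hint : Integrable (fun p : (Fin N1 → ℝ) × (Fin N2 → ℝ) =>
        ∫ x1, (∫ x2, h (fun i => cRho N1 N2
            (rhoFrac N1 N2 (Fin.append p.1 p.2 : Fin (N1 + N2) → ℝ)) i
            * (Fin.append (dirv x1) (dirv x2) : Fin (N1 + N2) → ℝ) i) ∂(gauss N2))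
            ∂(gauss N1)) ((gauss N1).prod (gauss N2)) :=
      join_integrable _ _ (hm.comp_measurable (measurable_append N1 N2)) B
        (fun p => join_abs_integral_le _ _ B (fun x1 => join_abs_integral_le _ _ B
          (fun x2 => hB _)))
    rw [integral_prod _ hint]
    refine integral_congr_ae (Filter.Eventually.of_forall (fun y1 => ?_))
    refine integral_congr_ae (Filter.Eventually.of_forall (fun y2 => ?_))
    show ∫ x1, (∫ x2, h (fun i => cRho N1 N2
        (rhoFrac N1 N2 (Fin.append y1 y2 : Fin (N1 + N2) → ℝ)) i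
        * (Fin.append (dirv x1) (dirv x2) : Fin (N1 + N2) → ℝ) i) ∂(gauss N2)) ∂(gauss N1) = _
    rw [join_rhoFrac_append]
    rfl
  rw [hL, hR]
  exact join_exchange N1 N2 (join_H N1 N2 h) hH B hHB

end Vale.Agent.Lib.P157
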