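import Mathlib
import Vale.Agent.Lib.P157.Lim.Defs
import Vale.Agent.Lib.P157.Lim.ZcBasic
import Vale.Agent.Lib.P157.Lim.Lipschitz
import Vale.Agent.Lib.P157.PD.Defs
import Vale.Agent.Lib.P157.PD.ZcBasic
import Vale.Agent.Lib.P157.Sph.Defs
import Vale.Agent.Lib.P157.Sph.ZcBasicM

/-!
# P157: `AcM` is Lipschitz in the number of patterns

For a configuration law `m` and a fixed coefficient vector `c` used by every pattern, adding one
pattern changes `E log Z` by at most `-log (1 - θ)`, for an abstract continuous weight `1 - u`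
with `|u| ≤ θ < 1`.
-/

open MeasureTheory ProbabilityTheory

namespace Vale.Agent.Lib.P157

/-- Pointwise comparison of the partition functions with `k + 1` and `k` patterns. -/
lemma lipm_ZcM_succ_bounds (u : ℝ → ℝ) (hu : Continuous u) (θ : ℝ) (hθ1 : θ < 1)
    (hθ : ∀ s, |u s| ≤ θ) {n : ℕ} (m : Measure (Fin n → ℝ)) [IsProbabilityMeasure m]
    (c : Fin n → ℝ) (k : ℕ) (G : Fin (k + 1) → Fin n → ℝ) :
    (1 - θ) * ZcM u m (fun (_ : Fin k) => c) (fun a => G (Fin.castSucc a))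
        ≤ ZcM u m (fun (_ : Fin (k + 1)) => c) G ∧
      ZcM u m (fun (_ : Fin (k + 1)) => c) G
        ≤ (1 + θ) * ZcM u m (fun (_ : Fin k) => c) (fun a => G (Fin.castSucc a)) := by
  unfold ZcM
  have hi1 := integrable_ZcM_integrand u θ hu hθ1 hθ m (fun (_ : Fin (k + 1)) => c) G
  have hi0 := integrable_ZcM_integrand u θ hu hθ1 hθ m (fun (_ : Fin k) => c)
    (fun a => G (Fin.castSucc a))
  rw [← integral_const_mul, ← integral_const_mul]
  constructor
  · refine integral_mono (hi0.const_mul _) hi1 (fun y => ?_)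
    change (1 - θ) * ∏ a : Fin k, (1 - u (∑ i, G (Fin.castSucc a) i * c i * y i))
      ≤ ∏ a : Fin (k + 1), (1 - u (∑ i, G a i * c i * y i))
    rw [Fin.prod_univ_castSucc]
    have hpos : 0 < ∏ a : Fin k, (1 - u (∑ i, G (Fin.castSucc a) i * c i * y i)) :=
      Finset.prod_pos fun _ _ => one_sub_u_pos u θ hθ1 hθ _
    have hl := one_sub_u_lower u θ hθ (∑ i, G (Fin.last k) i * c i * y i)
    rw [mul_comm]
    exact mul_le_mul_of_nonneg_left hl hpos.le
  · refine integral_mono hi1 (hi0.const_mul _) (fun y => ?_)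
    change ∏ a : Fin (k + 1), (1 - u (∑ i, G a i * c i * y i))
      ≤ (1 + θ) * ∏ a : Fin k, (1 - u (∑ i, G (Fin.castSucc a) i * c i * y i))
    rw [Fin.prod_univ_castSucc]
    have hpos : 0 < ∏ a : Fin k, (1 - u (∑ i, G (Fin.castSucc a) i * c i * y i)) :=
      Finset.prod_pos fun _ _ => one_sub_u_pos u θ hθ1 hθ _
    have hu' := one_sub_u_upper u θ hθ (∑ i, G (Fin.last k) i * c i * y i)
    rw [mul_comm (1 + θ)]
    exact mul_le_mul_of_nonneg_left hu' hpos.le

/-- Pointwise comparison of the logarithms. -/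
lemma lipm_abs_log_ZcM_succ_sub (u : ℝ → ℝ) (hu : Continuous u) (θ : ℝ) (hθ1 : θ < 1)
    (hθ : ∀ s, |u s| ≤ θ) {n : ℕ} (m : Measure (Fin n → ℝ)) [IsProbabilityMeasure m]
    (c : Fin n → ℝ) (k : ℕ) (G : Fin (k + 1) → Fin n → ℝ) :
    |Real.log (ZcM u m (fun (_ : Fin (k + 1)) => c) G)
        - Real.log (ZcM u m (fun (_ : Fin k) => c) (fun a => G (Fin.castSucc a)))|
      ≤ -Real.log (1 - θ) := by
  have h0 := theta_nonneg u θ hθ
  have h1 : 0 < 1 - θ := by linarith
  have h2 : 0 < 1 + θ := by linarith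
  obtain ⟨hlo, hhi⟩ := lipm_ZcM_succ_bounds u hu θ hθ1 hθ m c k G
  have hZ : 0 < ZcM u m (fun (_ : Fin k) => c) (fun a => G (Fin.castSucc a)) :=
    ZcM_pos u θ m hu hθ1 hθ _ _
  have hZ' : 0 < ZcM u m (fun (_ : Fin (k + 1)) => c) G := ZcM_pos u θ m hu hθ1 hθ _ _
  have e1 := Real.log_le_log (mul_pos h1 hZ) hlo
  have e2 := Real.log_le_log hZ' hhi
  rw [Real.log_mul h1.ne' hZ.ne'] at e1
  rw [Real.log_mul h2.ne' hZ.ne'] at e2
  have e3 := log_one_add_theta_le θ h0 hθ1
  rw [abs_le]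
  constructor <;> linarith

/-- One step: adding one pattern changes `AcM` by at most `-log (1 - θ)`. -/
lemma lipm_AcM_succ (u : ℝ → ℝ) (hu : Continuous u) (θ : ℝ) (hθ1 : θ < 1)
    (hθ : ∀ s, |u s| ≤ θ) {n : ℕ} (m : Measure (Fin n → ℝ)) [IsProbabilityMeasure m]
    (c : Fin n → ℝ) (k : ℕ) :
    |AcM u m (fun (_ : Fin (k + 1)) => c) - AcM u m (fun (_ : Fin k) => c)|
      ≤ -Real.log (1 - θ) := by
  have hmp := lip_measurePreserving_castSucc n k
  have hk : AcM u m (fun (_ : Fin k) => c) = ∫ G, Real.log (ZcM u m (fun (_ : Fin k) => c)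
      (fun a => G (Fin.castSucc a))) ∂(Measure.pi (fun _ : Fin (k + 1) => gauss n)) := by
    unfold AcM
    rw [← hmp.map_eq]
    rw [integral_map hmp.measurable.aemeasurable
      (measurable_log_ZcM u m hu _).aestronglyMeasurable]
  have hk1 : AcM u m (fun (_ : Fin (k + 1)) => c) = ∫ G, Real.log (ZcM u m
      (fun (_ : Fin (k + 1)) => c) G) ∂(Measure.pi (fun _ : Fin (k + 1) => gauss n)) := rfl
  have hi1 : Integrable (fun G => Real.log (ZcM u m (fun (_ : Fin (k + 1)) => c) G))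
      (Measure.pi (fun _ : Fin (k + 1) => gauss n)) :=
    integrable_log_ZcM u θ m hu hθ1 hθ _ _
  have hi2 : Integrable (fun G : Fin (k + 1) → Fin n → ℝ =>
      Real.log (ZcM u m (fun (_ : Fin k) => c) (fun a => G (Fin.castSucc a))))
      (Measure.pi (fun _ : Fin (k + 1) => gauss n)) :=
    (hmp.integrable_comp (measurable_log_ZcM u m hu _).aestronglyMeasurable).2
      (integrable_log_ZcM u θ m hu hθ1 hθ _ _)
  rw [hk, hk1, ← integral_sub hi1 hi2]
  have h := norm_integral_le_of_norm_le_const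
    (μ := Measure.pi (fun _ : Fin (k + 1) => gauss n))
    (f := fun G => Real.log (ZcM u m (fun (_ : Fin (k + 1)) => c) G)
      - Real.log (ZcM u m (fun (_ : Fin k) => c) (fun a => G (Fin.castSucc a))))
    (C := -Real.log (1 - θ))
    (Filter.Eventually.of_forall fun G => by
      simpa [Real.norm_eq_abs] using lipm_abs_log_ZcM_succ_sub u hu θ hθ1 hθ m c k G)
  simpa [Real.norm_eq_abs] using h

/-- Telescoping: `j` extra patterns. -/
lemma lipm_AcM_add (u : ℝ → ℝ) (hu : Continuous u) (θ : ℝ) (hθ1 : θ < 1)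
    (hθ : ∀ s, |u s| ≤ θ) {n : ℕ} (m : Measure (Fin n → ℝ)) [IsProbabilityMeasure m]
    (c : Fin n → ℝ) (k j : ℕ) :
    |AcM u m (fun (_ : Fin (k + j)) => c) - AcM u m (fun (_ : Fin k) => c)|
      ≤ -Real.log (1 - θ) * j := by
  induction j with
  | zero => simp
  | succ j ih =>
    have h1 := lipm_AcM_succ u hu θ hθ1 hθ m c (k + j)
    have h2 : AcM u m (fun (_ : Fin (k + (j + 1))) => c) - AcM u m (fun (_ : Fin k) => c)
        = (AcM u m (fun (_ : Fin (k + j + 1)) => c) - AcM u m (fun (_ : Fin (k + j)) => c))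
          + (AcM u m (fun (_ : Fin (k + j)) => c) - AcM u m (fun (_ : Fin k) => c)) := by
      rw [← add_assoc]; ring
    rw [h2]
    refine (abs_add_le _ _).trans ?_
    push_cast
    linarith

/-- `AcM` is Lipschitz in the number of patterns, with constant `-log (1 - θ)`. -/
theorem AcM_lipschitz (u : ℝ → ℝ) (hu : Continuous u) (θ : ℝ) (hθ1 : θ < 1)
    (hθ : ∀ s, |u s| ≤ θ) {n : ℕ} (m : Measure (Fin n → ℝ)) [IsProbabilityMeasure m]
    (c : Fin n → ℝ) (k k' : ℕ) :
    |AcM u m (fun (_ : Fin k) => c) - AcM u m (fun (_ : Fin k') => c)|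
      ≤ -Real.log (1 - θ) * |(k : ℝ) - k'| := by
  rcases le_total k' k with h | h
  · obtain ⟨j, rfl⟩ := Nat.exists_eq_add_of_le h
    have := lipm_AcM_add u hu θ hθ1 hθ m c k' j
    have e : |((k' + j : ℕ) : ℝ) - k'| = j := by
      push_cast
      rw [add_sub_cancel_left, abs_of_nonneg (Nat.cast_nonneg j)]
    rw [e]
    exact this
  · obtain ⟨j, rfl⟩ := Nat.exists_eq_add_of_le h
    have := lipm_AcM_add u hu θ hθ1 hθ m c k j
    have e : |(k : ℝ) - ((k + j : ℕ) : ℝ)| = j := by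
      push_cast
      rw [sub_add_cancel_left, abs_neg, abs_of_nonneg (Nat.cast_nonneg j)]
    rw [e, abs_sub_comm]
    exact this

end Vale.Agent.Lib.P157
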