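import Mathlib
import Vale.Agent.Lib.P157.Lim.Defs
import Vale.Agent.Lib.P157.Lim.ZcBasic
import Vale.Agent.Lib.P157.PD.Defs
import Vale.Agent.Lib.P157.PD.ZcBasic
import Vale.Agent.Lib.P157.Sph.Defs
import Vale.Agent.Lib.P157.Sph.ZcBasicM
import Vale.Agent.Lib.P157.PD.MomentU
import Vale.Agent.Lib.P157.Lim.Moment

/-!
# P157: the Gaussian moment inequality with an integral over a configuration law
-/

open MeasureTheory ProbabilityTheory

namespace Vale.Agent.Lib.P157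

section momentm

variable {n : ℕ} (m : Measure (Fin n → ℝ)) (β : (Fin n → ℝ) → ℝ) (ν : Measure ℝ)

/-- The weighted integral of cosine transforms of linear forms. -/
noncomputable def momentm_T (c : Fin n → ℝ) (g : Fin n → ℝ) : ℝ :=
  ∫ y, β y * cosT ν (∑ i, g i * c i * y i) ∂m

/-- The Gaussian moment of the weighted integral with an extra cosine factor. -/
noncomputable def momentm_I (c : Fin n → ℝ) (r : ℕ) (z : Fin n → ℝ) : ℝ :=
  ∫ g, Real.cos (∑ i, g i * c i * z i) * momentm_T m β ν c g ^ r ∂(gauss n)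

/-- The sum of the two shifted integrands, as a function of `(g, (y, t))`. -/
noncomputable def momentm_K (c : Fin n → ℝ) (r : ℕ) (z : Fin n → ℝ)
    (Q : (Fin n → ℝ) × ((Fin n → ℝ) × ℝ)) : ℝ :=
  (Real.cos (∑ i, Q.1 i * c i * (z i + Q.2.2 * Q.2.1 i)) +
    Real.cos (∑ i, Q.1 i * c i * (z i - Q.2.2 * Q.2.1 i))) * momentm_T m β ν c Q.1 ^ r

omit m ν in
lemma momentm_abs_beta_le (hβ0 : ∀ y, 0 ≤ β y) (B : ℝ) (hβB : ∀ y, β y ≤ B)
    (y : Fin n → ℝ) : |β y| ≤ |B| := by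
  rw [abs_of_nonneg (hβ0 y)]
  exact (hβB y).trans (le_abs_self B)

variable [IsFiniteMeasure m] [IsFiniteMeasure ν]

lemma momentm_T_abs_le (hβ0 : ∀ y, 0 ≤ β y) (B : ℝ) (hβB : ∀ y, β y ≤ B)
    (c g : Fin n → ℝ) :
    |momentm_T m β ν c g| ≤ |B| * ν.real Set.univ * m.real Set.univ := by
  unfold momentm_T
  have h := norm_integral_le_of_norm_le_const (μ := m)
    (f := fun y => β y * cosT ν (∑ i, g i * c i * y i))
    (C := |B| * ν.real Set.univ) (Filter.Eventually.of_forall fun y => by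
      rw [Real.norm_eq_abs, abs_mul]
      exact mul_le_mul (momentm_abs_beta_le β hβ0 B hβB y) (abs_cosT_le ν _) (abs_nonneg _)
        (abs_nonneg _))
  rw [Real.norm_eq_abs] at h
  exact h

lemma momentm_continuous_T (hβm : Measurable β) (hβ0 : ∀ y, 0 ≤ β y) (B : ℝ)
    (hβB : ∀ y, β y ≤ B) (c : Fin n → ℝ) : Continuous (momentm_T m β ν c) := by
  unfold momentm_T
  have hc := continuous_cosT ν
  refine continuous_of_dominated (bound := fun _ => |B| * ν.real Set.univ) ?_ ?_ ?_ ?_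
  · intro g
    exact (hβm.mul (hc.measurable.comp
      (by fun_prop : Measurable fun y : Fin n → ℝ => ∑ i, g i * c i * y i))).aestronglyMeasurable
  · intro g
    exact Filter.Eventually.of_forall fun y => by
      rw [Real.norm_eq_abs, abs_mul]
      exact mul_le_mul (momentm_abs_beta_le β hβ0 B hβB y) (abs_cosT_le ν _) (abs_nonneg _)
        (abs_nonneg _)
  · exact integrable_const _
  · exact Filter.Eventually.of_forall fun y => by fun_prop

lemma momentm_continuous_K (hβm : Measurable β) (hβ0 : ∀ y, 0 ≤ β y) (B : ℝ)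
    (hβB : ∀ y, β y ≤ B) (c : Fin n → ℝ) (r : ℕ) (z : Fin n → ℝ) :
    Continuous (momentm_K m β ν c r z) := by
  unfold momentm_K
  have h := momentm_continuous_T m β ν hβm hβ0 B hβB c
  fun_prop

lemma momentm_K_abs_le (hβ0 : ∀ y, 0 ≤ β y) (B : ℝ) (hβB : ∀ y, β y ≤ B)
    (c : Fin n → ℝ) (r : ℕ) (z : Fin n → ℝ) (Q : (Fin n → ℝ) × ((Fin n → ℝ) × ℝ)) :
    |momentm_K m β ν c r z Q| ≤ 2 * (|B| * ν.real Set.univ * m.real Set.univ) ^ r := by
  unfold momentm_K
  rw [abs_mul, abs_pow]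
  have h1 : |Real.cos (∑ i, Q.1 i * c i * (z i + Q.2.2 * Q.2.1 i)) +
      Real.cos (∑ i, Q.1 i * c i * (z i - Q.2.2 * Q.2.1 i))| ≤ 2 := by
    refine (abs_add_le _ _).trans ?_
    have a1 := Real.abs_cos_le_one (∑ i, Q.1 i * c i * (z i + Q.2.2 * Q.2.1 i))
    have a2 := Real.abs_cos_le_one (∑ i, Q.1 i * c i * (z i - Q.2.2 * Q.2.1 i))
    linarith
  exact mul_le_mul h1
    (pow_le_pow_left₀ (abs_nonneg _) (momentm_T_abs_le m β ν hβ0 B hβB c Q.1) r)
    (pow_nonneg (abs_nonneg _) r) zero_le_two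

lemma momentm_integrable_G (hβm : Measurable β) (hβ0 : ∀ y, 0 ≤ β y) (B : ℝ)
    (hβB : ∀ y, β y ≤ B) (c : Fin n → ℝ) (r : ℕ) (z : Fin n → ℝ) :
    Integrable (fun Q : (Fin n → ℝ) × ((Fin n → ℝ) × ℝ) =>
      β Q.2.1 / 2 * momentm_K m β ν c r z Q) ((gauss n).prod (m.prod ν)) := by
  refine Integrable.of_bound ?_
    (|B| / 2 * (2 * (|B| * ν.real Set.univ * m.real Set.univ) ^ r))
    (Filter.Eventually.of_forall fun Q => ?_)
  · exact (((hβm.comp (measurable_fst.comp measurable_snd)).div_const 2).mul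
      (momentm_continuous_K m β ν hβm hβ0 B hβB c r z).measurable).aestronglyMeasurable
  · rw [Real.norm_eq_abs, abs_mul, abs_div, abs_two]
    exact mul_le_mul
      (div_le_div_of_nonneg_right (momentm_abs_beta_le β hβ0 B hβB _) zero_le_two)
      (momentm_K_abs_le m β ν hβ0 B hβB c r z Q) (abs_nonneg _) (by positivity)

lemma momentm_T_eq_prod (hβm : Measurable β) (hβ0 : ∀ y, 0 ≤ β y) (B : ℝ)
    (hβB : ∀ y, β y ≤ B) (c g : Fin n → ℝ) :
    ∫ P, β P.1 * Real.cos (P.2 * ∑ i, g i * c i * P.1 i) ∂(m.prod ν) =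
      momentm_T m β ν c g := by
  have hint : Integrable (fun P : (Fin n → ℝ) × ℝ =>
      β P.1 * Real.cos (P.2 * ∑ i, g i * c i * P.1 i)) (m.prod ν) := by
    refine Integrable.of_bound ?_ |B| (Filter.Eventually.of_forall fun P => ?_)
    · exact ((hβm.comp measurable_fst).mul
        (by fun_prop : Continuous fun P : (Fin n → ℝ) × ℝ =>
          Real.cos (P.2 * ∑ i, g i * c i * P.1 i)).measurable).aestronglyMeasurable
    · rw [Real.norm_eq_abs, abs_mul]
      calc |β P.1| * |Real.cos (P.2 * ∑ i, g i * c i * P.1 i)| ≤ |B| * 1 :=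
            mul_le_mul (momentm_abs_beta_le β hβ0 B hβB _) (Real.abs_cos_le_one _)
              (abs_nonneg _) (abs_nonneg _)
        _ = |B| := mul_one _
  rw [integral_prod _ hint]
  unfold momentm_T
  refine integral_congr_ae (Filter.Eventually.of_forall fun y => ?_)
  show ∫ t, β y * Real.cos (t * ∑ i, g i * c i * y i) ∂ν =
    β y * cosT ν (∑ i, g i * c i * y i)
  rw [integral_const_mul]
  rfl

lemma momentm_pointwise (hβm : Measurable β) (hβ0 : ∀ y, 0 ≤ β y) (B : ℝ)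
    (hβB : ∀ y, β y ≤ B) (c : Fin n → ℝ) (r : ℕ) (z g : Fin n → ℝ) :
    Real.cos (∑ i, g i * c i * z i) * momentm_T m β ν c g ^ (r + 1) =
      ∫ P, β P.1 / 2 * momentm_K m β ν c r z (g, P) ∂(m.prod ν) := by
  have hs : ∀ P : (Fin n → ℝ) × ℝ, β P.1 / 2 * momentm_K m β ν c r z (g, P) =
      (Real.cos (∑ i, g i * c i * z i) * momentm_T m β ν c g ^ r) *
        (β P.1 * Real.cos (P.2 * ∑ i, g i * c i * P.1 i)) := by
    intro P
    have e1 : ∑ i, g i * c i * (z i + P.2 * P.1 i) =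
        ∑ i, g i * c i * z i + P.2 * ∑ i, g i * c i * P.1 i := by
      rw [Finset.mul_sum, ← Finset.sum_add_distrib]
      exact Finset.sum_congr rfl (fun i _ => by ring)
    have e2 : ∑ i, g i * c i * (z i - P.2 * P.1 i) =
        ∑ i, g i * c i * z i - P.2 * ∑ i, g i * c i * P.1 i := by
      rw [Finset.mul_sum, ← Finset.sum_sub_distrib]
      exact Finset.sum_congr rfl (fun i _ => by ring)
    show β P.1 / 2 * ((Real.cos (∑ i, g i * c i * (z i + P.2 * P.1 i)) +
      Real.cos (∑ i, g i * c i * (z i - P.2 * P.1 i))) * momentm_T m β ν c g ^ r) = _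
    rw [e1, e2, Real.cos_add, Real.cos_sub]
    ring
  simp only [hs]
  rw [integral_const_mul, momentm_T_eq_prod m β ν hβm hβ0 B hβB c g, pow_succ]
  ring

lemma momentm_integrable_I (hβm : Measurable β) (hβ0 : ∀ y, 0 ≤ β y) (B : ℝ)
    (hβB : ∀ y, β y ≤ B) (c : Fin n → ℝ) (r : ℕ) (z : Fin n → ℝ) :
    Integrable (fun g : Fin n → ℝ =>
      Real.cos (∑ i, g i * c i * z i) * momentm_T m β ν c g ^ r) (gauss n) := by
  have hT := momentm_continuous_T m β ν hβm hβ0 B hβB c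
  refine Integrable.of_bound
    (by fun_prop : Continuous fun g : Fin n → ℝ =>
      Real.cos (∑ i, g i * c i * z i) * momentm_T m β ν c g ^ r).aestronglyMeasurable
    ((|B| * ν.real Set.univ * m.real Set.univ) ^ r) (Filter.Eventually.of_forall fun g => ?_)
  rw [Real.norm_eq_abs, abs_mul, abs_pow]
  calc |Real.cos (∑ i, g i * c i * z i)| * |momentm_T m β ν c g| ^ r
      ≤ 1 * (|B| * ν.real Set.univ * m.real Set.univ) ^ r :=
        mul_le_mul (Real.abs_cos_le_one _)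
          (pow_le_pow_left₀ (abs_nonneg _) (momentm_T_abs_le m β ν hβ0 B hβB c g) r)
          (pow_nonneg (abs_nonneg _) r) zero_le_one
    _ = (|B| * ν.real Set.univ * m.real Set.univ) ^ r := one_mul _

lemma momentm_K_integral (hβm : Measurable β) (hβ0 : ∀ y, 0 ≤ β y) (B : ℝ)
    (hβB : ∀ y, β y ≤ B) (c : Fin n → ℝ) (r : ℕ) (z : Fin n → ℝ) (P : (Fin n → ℝ) × ℝ) :
    ∫ g, momentm_K m β ν c r z (g, P) ∂(gauss n) =
      momentm_I m β ν c r (fun i => z i + P.2 * P.1 i) +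
        momentm_I m β ν c r (fun i => z i - P.2 * P.1 i) := by
  show ∫ g, (Real.cos (∑ i, g i * c i * (z i + P.2 * P.1 i)) +
      Real.cos (∑ i, g i * c i * (z i - P.2 * P.1 i))) * momentm_T m β ν c g ^ r ∂(gauss n) =
    (∫ g, Real.cos (∑ i, g i * c i * (z i + P.2 * P.1 i)) * momentm_T m β ν c g ^ r ∂(gauss n)) +
      ∫ g, Real.cos (∑ i, g i * c i * (z i - P.2 * P.1 i)) * momentm_T m β ν c g ^ r ∂(gauss n)
  rw [← integral_add
    (momentm_integrable_I m β ν hβm hβ0 B hβB c r (fun i => z i + P.2 * P.1 i))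
    (momentm_integrable_I m β ν hβm hβ0 B hβB c r (fun i => z i - P.2 * P.1 i))]
  refine integral_congr_ae (Filter.Eventually.of_forall fun g => ?_)
  show (Real.cos (∑ i, g i * c i * (z i + P.2 * P.1 i)) +
      Real.cos (∑ i, g i * c i * (z i - P.2 * P.1 i))) * momentm_T m β ν c g ^ r =
    Real.cos (∑ i, g i * c i * (z i + P.2 * P.1 i)) * momentm_T m β ν c g ^ r +
      Real.cos (∑ i, g i * c i * (z i - P.2 * P.1 i)) * momentm_T m β ν c g ^ r
  ring

lemma momentm_integrable_H (hβm : Measurable β) (hβ0 : ∀ y, 0 ≤ β y) (B : ℝ)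
    (hβB : ∀ y, β y ≤ B) (c : Fin n → ℝ) (r : ℕ) (z : Fin n → ℝ) :
    Integrable (fun P : (Fin n → ℝ) × ℝ =>
      β P.1 / 2 * (momentm_I m β ν c r (fun i => z i + P.2 * P.1 i) +
        momentm_I m β ν c r (fun i => z i - P.2 * P.1 i))) (m.prod ν) := by
  have hG := momentm_integrable_G m β ν hβm hβ0 B hβB c r z
  refine hG.integral_prod_right.congr (Filter.Eventually.of_forall fun P => ?_)
  show ∫ g, β P.1 / 2 * momentm_K m β ν c r z (g, P) ∂(gauss n) = _
  rw [integral_const_mul, momentm_K_integral m β ν hβm hβ0 B hβB c r z P]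

lemma momentm_I_succ (hβm : Measurable β) (hβ0 : ∀ y, 0 ≤ β y) (B : ℝ)
    (hβB : ∀ y, β y ≤ B) (c : Fin n → ℝ) (r : ℕ) (z : Fin n → ℝ) :
    momentm_I m β ν c (r + 1) z =
      ∫ P, β P.1 / 2 * (momentm_I m β ν c r (fun i => z i + P.2 * P.1 i) +
        momentm_I m β ν c r (fun i => z i - P.2 * P.1 i)) ∂(m.prod ν) := by
  have hG := momentm_integrable_G m β ν hβm hβ0 B hβB c r z
  have h1 : momentm_I m β ν c (r + 1) z =
      ∫ g, ∫ P, β P.1 / 2 * momentm_K m β ν c r z (g, P) ∂(m.prod ν) ∂(gauss n) := by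
    unfold momentm_I
    refine integral_congr_ae (Filter.Eventually.of_forall (fun g => ?_))
    exact momentm_pointwise m β ν hβm hβ0 B hβB c r z g
  rw [h1]
  have h2 := integral_integral_swap (μ := gauss n) (ν := m.prod ν)
    (f := fun g P => β P.1 / 2 * momentm_K m β ν c r z (g, P)) hG
  rw [h2]
  refine integral_congr_ae (Filter.Eventually.of_forall (fun P => ?_))
  show ∫ g, β P.1 / 2 * momentm_K m β ν c r z (g, P) ∂(gauss n) = _
  rw [integral_const_mul, momentm_K_integral m β ν hβm hβ0 B hβB c r z P]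

lemma momentm_I_mix (c0 c1 c2 : Fin n → ℝ) (p q : ℝ) (hp : 0 ≤ p) (hq : 0 ≤ q)
    (hpq : p + q = 1) (hc : ∀ i, c0 i ^ 2 = p * c1 i ^ 2 + q * c2 i ^ 2)
    (hβm : Measurable β) (hβ0 : ∀ y, 0 ≤ β y) (B : ℝ) (hβB : ∀ y, β y ≤ B) (r : ℕ) :
    ∀ z : Fin n → ℝ,
      momentm_I m β ν c0 r z ≤ p * momentm_I m β ν c1 r z + q * momentm_I m β ν c2 r z := by
  induction r with
  | zero =>
    intro z
    unfold momentm_I
    simp only [pow_zero, mul_one]
    have e : ∀ c : Fin n → ℝ, ∫ g, Real.cos (∑ i, g i * c i * z i) ∂(gauss n) =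
        Real.exp (-(∑ i, (c i * z i) ^ 2) / 2) := by
      intro c
      have h := moment_cos_integral (fun i => c i * z i)
      simp only [← mul_assoc] at h
      exact h
    rw [e, e, e]
    have hsum : ∑ i, (c0 i * z i) ^ 2 =
        p * ∑ i, (c1 i * z i) ^ 2 + q * ∑ i, (c2 i * z i) ^ 2 := by
      rw [Finset.mul_sum, Finset.mul_sum, ← Finset.sum_add_distrib]
      refine Finset.sum_congr rfl (fun i _ => ?_)
      rw [mul_pow, hc i]
      ring
    rw [hsum]
    have hconv := convexOn_exp.2 (Set.mem_univ (-(∑ i, (c1 i * z i) ^ 2) / 2))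
      (Set.mem_univ (-(∑ i, (c2 i * z i) ^ 2) / 2)) hp hq hpq
    simp only [smul_eq_mul] at hconv
    have e3 : -(p * ∑ i, (c1 i * z i) ^ 2 + q * ∑ i, (c2 i * z i) ^ 2) / 2 =
        p * (-(∑ i, (c1 i * z i) ^ 2) / 2) + q * (-(∑ i, (c2 i * z i) ^ 2) / 2) := by ring
    rw [e3]
    exact hconv
  | succ r ih =>
    intro z
    rw [momentm_I_succ m β ν hβm hβ0 B hβB c0 r z, momentm_I_succ m β ν hβm hβ0 B hβB c1 r z,
      momentm_I_succ m β ν hβm hβ0 B hβB c2 r z]
    have hi0 := momentm_integrable_H m β ν hβm hβ0 B hβB c0 r z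
    have hi1 := momentm_integrable_H m β ν hβm hβ0 B hβB c1 r z
    have hi2 := momentm_integrable_H m β ν hβm hβ0 B hβB c2 r z
    rw [← integral_const_mul, ← integral_const_mul,
      ← integral_add (hi1.const_mul p) (hi2.const_mul q)]
    refine integral_mono hi0 ((hi1.const_mul p).add (hi2.const_mul q)) (fun P => ?_)
    have h1 := ih (fun i => z i + P.2 * P.1 i)
    have h2 := ih (fun i => z i - P.2 * P.1 i)
    have hb : 0 ≤ β P.1 / 2 := div_nonneg (hβ0 P.1) zero_le_two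
    have h3 := mul_le_mul_of_nonneg_left (add_le_add h1 h2) hb
    show β P.1 / 2 * (momentm_I m β ν c0 r (fun i => z i + P.2 * P.1 i) +
        momentm_I m β ν c0 r (fun i => z i - P.2 * P.1 i)) ≤
      p * (β P.1 / 2 * (momentm_I m β ν c1 r (fun i => z i + P.2 * P.1 i) +
        momentm_I m β ν c1 r (fun i => z i - P.2 * P.1 i))) +
      q * (β P.1 / 2 * (momentm_I m β ν c2 r (fun i => z i + P.2 * P.1 i) +
        momentm_I m β ν c2 r (fun i => z i - P.2 * P.1 i)))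
    refine le_trans h3 (le_of_eq ?_)
    ring

end momentm

theorem moment_mix_ineq_M {n : ℕ} (c0 c1 c2 : Fin n → ℝ) (p q : ℝ) (hp : 0 ≤ p) (hq : 0 ≤ q)
    (hpq : p + q = 1) (hc : ∀ i, c0 i ^ 2 = p * c1 i ^ 2 + q * c2 i ^ 2)
    (m : Measure (Fin n → ℝ)) [IsFiniteMeasure m]
    (β : (Fin n → ℝ) → ℝ) (hβm : Measurable β) (hβ0 : ∀ y, 0 ≤ β y) (B : ℝ) (hβB : ∀ y, β y ≤ B)
    (ν : Measure ℝ) [IsFiniteMeasure ν] (r : ℕ) :
    ∫ g, (∫ y, β y * cosT ν (∑ i, g i * c0 i * y i) ∂m) ^ r ∂(gauss n)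
      ≤ p * ∫ g, (∫ y, β y * cosT ν (∑ i, g i * c1 i * y i) ∂m) ^ r ∂(gauss n)
        + q * ∫ g, (∫ y, β y * cosT ν (∑ i, g i * c2 i * y i) ∂m) ^ r ∂(gauss n) := by
  have h := momentm_I_mix m β ν c0 c1 c2 p q hp hq hpq hc hβm hβ0 B hβB r (fun _ => 0)
  unfold momentm_I momentm_T at h
  simpa using h

end Vale.Agent.Lib.P157
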