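import Mathlib
import Vale.Agent.Lib.P157.Lim.Defs
import Vale.Agent.Lib.P157.Lim.ZcBasic
import Vale.Agent.Lib.P157.Lim.LogSeries
import Vale.Agent.Lib.P157.PD.Defs
import Vale.Agent.Lib.P157.PD.ZcBasic
import Vale.Agent.Lib.P157.PD.MomentU
import Vale.Agent.Lib.P157.Sph.Defs
import Vale.Agent.Lib.P157.Sph.ZcBasicM
import Vale.Agent.Lib.P157.Sph.MomentM

/-!
# P157: the one-pattern inequality for a general configuration law
-/

open MeasureTheory ProbabilityTheory

namespace Vale.Agent.Lib.P157

/-- The one-pattern inequality for a weight `1 - u` and arbitrary configuration laws: replacing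
a pattern acting through `c0` by a pattern acting through `c1` with probability `p` and through
`c2` with probability `q` lowers the expected logarithm, for every measurable weight `w` on the
configurations that is bounded above and away from zero. -/
def OnePatternIneqM (u : ℝ → ℝ) : Prop :=
  ∀ (n : ℕ) (m : Measure (Fin n → ℝ)), IsProbabilityMeasure m →
    ∀ (c0 c1 c2 : Fin n → ℝ) (p q : ℝ), 0 ≤ p → 0 ≤ q → p + q = 1 →
    (∀ i, c0 i ^ 2 = p * c1 i ^ 2 + q * c2 i ^ 2) →
    ∀ w : (Fin n → ℝ) → ℝ, Measurable w → ∀ lo hi : ℝ, 0 < lo → (∀ y, lo ≤ w y) →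
      (∀ y, w y ≤ hi) →
      p * ∫ g, Real.log (∫ y, w y * (1 - u (∑ i, g i * c1 i * y i)) ∂m) ∂(gauss n)
        + q * ∫ g, Real.log (∫ y, w y * (1 - u (∑ i, g i * c2 i * y i)) ∂m) ∂(gauss n)
      ≤ ∫ g, Real.log (∫ y, w y * (1 - u (∑ i, g i * c0 i * y i)) ∂m) ∂(gauss n)

theorem onePatternIneqM_cosT (ν : Measure ℝ) [IsFiniteMeasure ν] (hν : ν.real Set.univ < 1) :
    OnePatternIneqM (cosT ν) := by
  classical
  intro n m hm c0 c1 c2 p q hp hq hpq hc w hwm lo hi hlo hwlo hwhi
  have hu := continuous_cosT ν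
  have hwint : Integrable w m := by
    refine Integrable.of_bound hwm.aestronglyMeasurable hi (Filter.Eventually.of_forall fun y => ?_)
    rw [Real.norm_eq_abs, abs_of_pos (lt_of_lt_of_le hlo (hwlo y))]
    exact hwhi y
  set W : ℝ := ∫ y, w y ∂m with hW
  have hWlo : lo ≤ W := by
    have h := integral_mono (μ := m) (integrable_const lo) hwint hwlo
    simpa using h
  have hWpos : 0 < W := lt_of_lt_of_le hlo hWlo
  -- the normalised weighted cosine transform
  set T : (Fin n → ℝ) → (Fin n → ℝ) → ℝ := fun c g =>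
    ∫ y, w y / W * cosT ν (∑ i, g i * c i * y i) ∂m with hT
  have hβint : Integrable (fun y => w y / W) m := hwint.div_const W
  have hsumw : ∫ y, w y / W ∂m = 1 := by
    rw [integral_div, ← hW, div_self hWpos.ne']
  have hβ0 : ∀ y, 0 ≤ w y / W := fun y => (div_pos (lt_of_lt_of_le hlo (hwlo y)) hWpos).le
  have hjm : ∀ c : Fin n → ℝ, Measurable (fun P : (Fin n → ℝ) × (Fin n → ℝ) =>
      w P.2 / W * cosT ν (∑ i, P.1 i * c i * P.2 i)) := by
    intro c
    have h1 : Measurable (fun P : (Fin n → ℝ) × (Fin n → ℝ) => w P.2 / W) :=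
      (hwm.comp measurable_snd).div_const W
    have h2 : Continuous (fun P : (Fin n → ℝ) × (Fin n → ℝ) =>
        cosT ν (∑ i, P.1 i * c i * P.2 i)) := by fun_prop
    exact h1.mul h2.measurable
  have hintc : ∀ (c g : Fin n → ℝ),
      Integrable (fun y => w y / W * cosT ν (∑ i, g i * c i * y i)) m := by
    intro c g
    have hmeas : Measurable (fun y : Fin n → ℝ => w y / W * cosT ν (∑ i, g i * c i * y i)) := by
      have h2 : Continuous (fun y : Fin n → ℝ => cosT ν (∑ i, g i * c i * y i)) := by fun_prop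
      exact (hwm.div_const W).mul h2.measurable
    refine Integrable.of_bound hmeas.aestronglyMeasurable (hi / W * ν.real Set.univ)
      (Filter.Eventually.of_forall fun y => ?_)
    rw [Real.norm_eq_abs, abs_mul, abs_of_nonneg (hβ0 y)]
    exact mul_le_mul (div_le_div_of_nonneg_right (hwhi y) hWpos.le) (abs_cosT_le ν _)
      (abs_nonneg _) (div_nonneg (le_trans hlo.le (le_trans (hwlo 0) (hwhi 0))) hWpos.le)
  have hTabs : ∀ c g, |T c g| ≤ ν.real Set.univ := by
    intro c g
    simp only [hT]
    calc |∫ y, w y / W * cosT ν (∑ i, g i * c i * y i) ∂m|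
        ≤ ∫ y, |w y / W * cosT ν (∑ i, g i * c i * y i)| ∂m := abs_integral_le_integral_abs
      _ ≤ ∫ y, w y / W * ν.real Set.univ ∂m := by
          refine integral_mono (hintc c g).abs (hβint.mul_const _) fun y => ?_
          show |w y / W * cosT ν (∑ i, g i * c i * y i)| ≤ w y / W * ν.real Set.univ
          rw [abs_mul, abs_of_nonneg (hβ0 y)]
          exact mul_le_mul_of_nonneg_left (abs_cosT_le ν _) (hβ0 y)
      _ = ν.real Set.univ := by rw [integral_mul_const, hsumw, one_mul]
  have hTmeas : ∀ c, Measurable (T c) := by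
    intro c
    simp only [hT]
    exact ((hjm c).stronglyMeasurable.integral_prod_right' (ν := m)).measurable
  have hkey : ∀ c g, ∫ y, w y * (1 - cosT ν (∑ i, g i * c i * y i)) ∂m = W * (1 - T c g) := by
    intro c g
    have h1 : W * T c g = ∫ y, w y * cosT ν (∑ i, g i * c i * y i) ∂m := by
      simp only [hT]
      rw [← integral_const_mul]
      refine integral_congr_ae (Filter.Eventually.of_forall fun y => ?_)
      show W * (w y / W * cosT ν (∑ i, g i * c i * y i)) = w y * cosT ν (∑ i, g i * c i * y i)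
      field_simp
    have hint2 : Integrable (fun y => w y * cosT ν (∑ i, g i * c i * y i)) m := by
      have := (hintc c g).const_mul W
      refine this.congr (Filter.Eventually.of_forall fun y => ?_)
      show W * (w y / W * cosT ν (∑ i, g i * c i * y i)) = w y * cosT ν (∑ i, g i * c i * y i)
      field_simp
    have h2 : ∫ y, w y * (1 - cosT ν (∑ i, g i * c i * y i)) ∂m
        = (∫ y, w y ∂m) - ∫ y, w y * cosT ν (∑ i, g i * c i * y i) ∂m := by
      rw [← integral_sub hwint hint2]
      refine integral_congr_ae (Filter.Eventually.of_forall fun y => ?_)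
      show w y * (1 - cosT ν (∑ i, g i * c i * y i)) = w y - w y * cosT ν (∑ i, g i * c i * y i)
      ring
    rw [h2, ← h1, ← hW, mul_sub, mul_one]
  have hlog : ∀ c g, Real.log (∫ y, w y * (1 - cosT ν (∑ i, g i * c i * y i)) ∂m)
      = Real.log W + Real.log (1 - T c g) := by
    intro c g
    rw [hkey]
    have h1 : 0 < 1 - T c g := by
      have := le_of_abs_le (hTabs c g)
      linarith
    exact Real.log_mul hWpos.ne' h1.ne'
  have hθ0 : 0 ≤ ν.real Set.univ := measureReal_nonneg
  have hint : ∀ c, Integrable (fun g => Real.log (1 - T c g)) (gauss n) := by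
    intro c
    refine Integrable.of_bound
      (Real.measurable_log.comp (measurable_const.sub (hTmeas c))).aestronglyMeasurable
      (-Real.log (1 - ν.real Set.univ)) (Filter.Eventually.of_forall fun g => ?_)
    have h1 := hTabs c g
    have h2 : 0 < 1 - ν.real Set.univ := by linarith
    have h3 : 1 - ν.real Set.univ ≤ 1 - T c g := by
      have := le_of_abs_le h1
      linarith
    have h4 : 1 - T c g ≤ 1 + ν.real Set.univ := by
      have := neg_le_of_abs_le h1
      linarith
    have h5 := Real.log_le_log h2 h3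
    have h6 := Real.log_le_log (lt_of_lt_of_le h2 h3) h4
    have h7 := log_one_add_theta_le (ν.real Set.univ) hθ0 hν
    rw [Real.norm_eq_abs, abs_le]
    constructor <;> linarith
  have hI : ∀ c, ∫ g, Real.log (∫ y, w y * (1 - cosT ν (∑ i, g i * c i * y i)) ∂m) ∂(gauss n)
      = Real.log W + ∫ g, Real.log (1 - T c g) ∂(gauss n) := by
    intro c
    simp_rw [hlog c]
    rw [integral_add (integrable_const _) (hint c)]
    simp
  rw [hI c0, hI c1, hI c2]
  have hmom : ∀ r : ℕ, ∫ g, T c0 g ^ r ∂(gauss n)
      ≤ p * ∫ g, T c1 g ^ r ∂(gauss n) + q * ∫ g, T c2 g ^ r ∂(gauss n) := by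
    intro r
    exact moment_mix_ineq_M c0 c1 c2 p q hp hq hpq hc m (fun y => w y / W) (hwm.div_const W) hβ0
      (hi / W) (fun y => div_le_div_of_nonneg_right (hwhi y) hWpos.le) ν r
  have hmain := log_one_sub_mix_ineq (gauss n) (T c0) (T c1) (T c2) (hTmeas c0) (hTmeas c1)
    (hTmeas c2) (ν.real Set.univ) hν (hTabs c0) (hTabs c1) (hTabs c2) p q hp hq hpq hmom
  have hWW : p * Real.log W + q * Real.log W = Real.log W := by
    rw [← add_mul, hpq, one_mul]
  linarith

end Vale.Agent.Lib.P157
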