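import Mathlib
import Vale.Agent.Lib.P157.Lim.Defs
import Vale.Agent.Lib.P157.Lim.ZcBasic
import Vale.Agent.Lib.P157.Lim.Coin
import Vale.Agent.Lib.P157.Lim.Assembly
import Vale.Agent.Lib.P157.PD.Defs
import Vale.Agent.Lib.P157.PD.ZcBasic
import Vale.Agent.Lib.P157.Sph.Defs
import Vale.Agent.Lib.P157.Sph.ZcBasicM
import Vale.Agent.Lib.P157.Sph.OnePatternM
import Vale.Agent.Lib.P157.Sph.BlocksM
import Vale.Agent.Lib.P157.Sph.LipschitzM
import Vale.Agent.Lib.P157.Sph.RhoDev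
import Vale.Agent.Lib.P157.Sph.ChainM
import Vale.Agent.Lib.P157.Sph.Join

/-!
# P157: almost superadditivity on the sphere

A uniform point of the unit sphere of `ℝ^(N1+N2)` is `(√ρ ω1, √(1-ρ) ω2)` with `ω1`, `ω2` uniform
on the unit spheres of the two blocks and `ρ` an independent Beta variable. By Jensen the
expected logarithm of the partition function is at least the average over `ρ` of the systems
with frozen `ρ`, and each of these is compared with two independent spherical systems by the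
interpolation chain, with coin bias `ρ`.
-/

open MeasureTheory ProbabilityTheory Filter

namespace Vale.Agent.Lib.P157

variable (u : ℝ → ℝ) (θ : ℝ)

/-- The family of coefficient vectors depends measurably on the configuration. -/
lemma measurable_cRho_family (N1 N2 M : ℕ) :
    Measurable (fun y : Fin (N1 + N2) → ℝ =>
      (fun _ : Fin M => cRho N1 N2 (rhoFrac N1 N2 y))) :=
  measurable_pi_lambda _ (fun _ => (measurable_cRho N1 N2).comp (measurable_rhoFrac N1 N2))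

/-- Joint measurability of the frozen partition function. -/
lemma measurable_ZcM_rho (hu : Continuous u) (N1 N2 M : ℕ) (m12 : Measure (Fin (N1 + N2) → ℝ))
    [SFinite m12] :
    Measurable (fun P : (Fin M → Fin (N1 + N2) → ℝ) × (Fin (N1 + N2) → ℝ) =>
      ZcM u m12 (fun _ : Fin M => cRho N1 N2 (rhoFrac N1 N2 P.2)) P.1) := by
  have h := measurable_ZcM_uncurry (ι := Fin M) u m12 hu
  have h2 : Measurable (fun P : (Fin M → Fin (N1 + N2) → ℝ) × (Fin (N1 + N2) → ℝ) =>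
      (((fun _ : Fin M => cRho N1 N2 (rhoFrac N1 N2 P.2)), P.1) :
        (Fin M → Fin (N1 + N2) → ℝ) × (Fin M → Fin (N1 + N2) → ℝ))) :=
    Measurable.prodMk ((measurable_cRho_family N1 N2 M).comp measurable_snd) measurable_fst
  exact Measurable.comp
    (g := fun P : (Fin M → Fin (N1 + N2) → ℝ) × (Fin M → Fin (N1 + N2) → ℝ) => ZcM u m12 P.1 P.2)
    (f := fun P : (Fin M → Fin (N1 + N2) → ℝ) × (Fin (N1 + N2) → ℝ) =>
      (((fun _ : Fin M => cRho N1 N2 (rhoFrac N1 N2 P.2)), P.1) :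
        (Fin M → Fin (N1 + N2) → ℝ) × (Fin M → Fin (N1 + N2) → ℝ))) h h2

/-- Joint integrability of the logarithm of the frozen partition function. -/
lemma integrable_log_ZcM_rho (hu : Continuous u) (hθ1 : θ < 1) (hθ : ∀ s, |u s| ≤ θ)
    (N1 N2 M : ℕ) (m12 : Measure (Fin (N1 + N2) → ℝ)) [IsProbabilityMeasure m12] :
    Integrable (Function.uncurry (fun (G : Fin M → Fin (N1 + N2) → ℝ) (y : Fin (N1 + N2) → ℝ) =>
      Real.log (ZcM u m12 (fun _ : Fin M => cRho N1 N2 (rhoFrac N1 N2 y)) G)))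
      ((Measure.pi (fun _ : Fin M => gauss (N1 + N2))).prod (gauss (N1 + N2))) := by
  refine Integrable.of_bound
    (Real.measurable_log.comp (measurable_ZcM_rho u hu N1 N2 M m12)).aestronglyMeasurable
    (Fintype.card (Fin M) * (-Real.log (1 - θ))) (Filter.Eventually.of_forall fun P => ?_)
  rw [Real.norm_eq_abs]
  exact abs_log_ZcM_le u θ m12 hu hθ1 hθ _ _

/-- The partition function on the sphere of `ℝ^(N1+N2)` is the average over the block fraction
`ρ` of the frozen partition functions. -/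
lemma ZcM_sph_eq_integral (hu : Continuous u) (hθ1 : θ < 1) (hθ : ∀ s, |u s| ≤ θ)
    (N1 N2 M : ℕ) (G : Fin M → Fin (N1 + N2) → ℝ) :
    ZcM u (sphLaw (N1 + N2)) (fun (_ : Fin M) (_ : Fin (N1 + N2)) => (1 : ℝ)) G
      = ∫ y, ZcM u (joinLaw (sphLaw N1) (sphLaw N2))
          (fun _ : Fin M => cRho N1 N2 (rhoFrac N1 N2 y)) G ∂(gauss (N1 + N2)) := by
  unfold ZcM
  have hmeas : Measurable (fun z : Fin (N1 + N2) → ℝ => ∏ a, (1 - u (∑ i, G a i * 1 * z i))) :=
    (continuous_ZcM_integrand_right u hu (fun (_ : Fin M) (_ : Fin (N1 + N2)) => (1 : ℝ))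
      G).measurable
  have hbd : ∀ z : Fin (N1 + N2) → ℝ,
      |∏ a, (1 - u (∑ i, G a i * 1 * z i))| ≤ (1 + θ) ^ Fintype.card (Fin M) := by
    intro z
    rw [abs_of_pos (ZcM_integrand_pos u θ hθ1 hθ
      (fun (_ : Fin M) (_ : Fin (N1 + N2)) => (1 : ℝ)) G z)]
    exact ZcM_integrand_upper u θ hθ1 hθ (fun (_ : Fin M) (_ : Fin (N1 + N2)) => (1 : ℝ)) G z
  rw [sphLaw_join N1 N2 (fun z => ∏ a, (1 - u (∑ i, G a i * 1 * z i))) hmeas _ hbd]
  refine integral_congr_ae (Filter.Eventually.of_forall fun y => ?_)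
  refine integral_congr_ae (Filter.Eventually.of_forall fun z => ?_)
  refine Finset.prod_congr rfl fun a _ => ?_
  have : ∑ i, G a i * 1 * (cRho N1 N2 (rhoFrac N1 N2 y) i * z i)
      = ∑ i, G a i * cRho N1 N2 (rhoFrac N1 N2 y) i * z i :=
    Finset.sum_congr rfl fun i _ => by ring
  show 1 - u (∑ i, G a i * 1 * (cRho N1 N2 (rhoFrac N1 N2 y) i * z i))
    = 1 - u (∑ i, G a i * cRho N1 N2 (rhoFrac N1 N2 y) i * z i)
  rw [this]

/-- Jensen: the spherical system dominates the average of the frozen systems. -/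
lemma AsphU_ge_integral (hu : Continuous u) (hθ1 : θ < 1) (hθ : ∀ s, |u s| ≤ θ)
    (N1 N2 M : ℕ) :
    ∫ y, AcM u (joinLaw (sphLaw N1) (sphLaw N2))
        (fun _ : Fin M => cRho N1 N2 (rhoFrac N1 N2 y)) ∂(gauss (N1 + N2))
      ≤ AsphU u (N1 + N2) M := by
  set m12 := joinLaw (sphLaw N1) (sphLaw N2) with hm12
  have hjoint := integrable_log_ZcM_rho u θ hu hθ1 hθ N1 N2 M m12
  have hθ0 := theta_nonneg u θ hθ
  have hlopos : 0 < (1 - θ) ^ Fintype.card (Fin M) := by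
    have : 0 < 1 - θ := by linarith
    positivity
  -- Jensen for each G
  have hJ : ∀ G : Fin M → Fin (N1 + N2) → ℝ,
      ∫ y, Real.log (ZcM u m12 (fun _ : Fin M => cRho N1 N2 (rhoFrac N1 N2 y)) G)
          ∂(gauss (N1 + N2))
        ≤ Real.log (ZcM u (sphLaw (N1 + N2)) (fun (_ : Fin M) (_ : Fin (N1 + N2)) => (1 : ℝ)) G) := by
    intro G
    rw [ZcM_sph_eq_integral u θ hu hθ1 hθ N1 N2 M G]
    have hmeasZ : Measurable (fun y : Fin (N1 + N2) → ℝ =>
        ZcM u m12 (fun _ : Fin M => cRho N1 N2 (rhoFrac N1 N2 y)) G) := by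
      have h2 : Measurable (fun y : Fin (N1 + N2) → ℝ =>
          ((G, y) : (Fin M → Fin (N1 + N2) → ℝ) × (Fin (N1 + N2) → ℝ))) :=
        Measurable.prodMk measurable_const measurable_id
      exact Measurable.comp
        (g := fun P : (Fin M → Fin (N1 + N2) → ℝ) × (Fin (N1 + N2) → ℝ) =>
          ZcM u m12 (fun _ : Fin M => cRho N1 N2 (rhoFrac N1 N2 P.2)) P.1)
        (f := fun y : Fin (N1 + N2) → ℝ =>
          ((G, y) : (Fin M → Fin (N1 + N2) → ℝ) × (Fin (N1 + N2) → ℝ)))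
        (measurable_ZcM_rho u hu N1 N2 M m12) h2
    have hintZ : Integrable (fun y : Fin (N1 + N2) → ℝ =>
        ZcM u m12 (fun _ : Fin M => cRho N1 N2 (rhoFrac N1 N2 y)) G) (gauss (N1 + N2)) := by
      refine Integrable.of_bound hmeasZ.aestronglyMeasurable ((1 + θ) ^ Fintype.card (Fin M))
        (Filter.Eventually.of_forall fun y => ?_)
      rw [Real.norm_eq_abs, abs_of_pos (ZcM_pos u θ m12 hu hθ1 hθ _ G)]
      exact ZcM_upper u θ m12 hu hθ1 hθ _ G
    have hintL : Integrable (Real.log ∘ fun y : Fin (N1 + N2) → ℝ =>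
        ZcM u m12 (fun _ : Fin M => cRho N1 N2 (rhoFrac N1 N2 y)) G) (gauss (N1 + N2)) := by
      refine Integrable.of_bound (Real.measurable_log.comp hmeasZ).aestronglyMeasurable
        (Fintype.card (Fin M) * (-Real.log (1 - θ))) (Filter.Eventually.of_forall fun y => ?_)
      rw [Real.norm_eq_abs]
      exact abs_log_ZcM_le u θ m12 hu hθ1 hθ _ _
    have hconc : ConcaveOn ℝ (Set.Ici ((1 - θ) ^ Fintype.card (Fin M))) Real.log :=
      strictConcaveOn_log_Ioi.concaveOn.subset (Set.Ici_subset_Ioi.mpr hlopos) (convex_Ici _)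
    have hcont : ContinuousOn Real.log (Set.Ici ((1 - θ) ^ Fintype.card (Fin M))) :=
      Real.continuousOn_log.mono (fun x hx => ne_of_gt (lt_of_lt_of_le hlopos hx))
    exact hconc.le_map_integral hcont isClosed_Ici
      (Filter.Eventually.of_forall fun y => ZcM_lower u θ m12 hu hθ1 hθ _ G) hintZ hintL
  unfold AsphU AcM
  rw [← integral_integral_swap hjoint]
  refine integral_mono hjoint.integral_prod_left
    (integrable_log_ZcM u θ (sphLaw (N1 + N2)) hu hθ1 hθ _ _) (fun G => hJ G)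

/-- Lower bound for the frozen system with block fraction `ρ`: the interpolation chain with coin
bias `ρ`, the block factorisation and the Lipschitz bound in the number of patterns. -/
lemma mixM_lower (hu : Continuous u) (hθ1 : θ < 1) (hθ : ∀ s, |u s| ≤ θ)
    (hOne : OnePatternIneqM u) (N1 N2 M m1 m2 : ℕ) (ρ : ℝ) (hρ0 : 0 ≤ ρ) (hρ1 : ρ ≤ 1) :
    AsphU u N1 m1 + AsphU u N2 m2
        - (-Real.log (1 - θ)) * (Real.sqrt (M * ρ * (1 - ρ)) + |(M : ℝ) * ρ - m1|)
        - (-Real.log (1 - θ))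
          * (Real.sqrt (M * ρ * (1 - ρ)) + |(M : ℝ) * ρ - ((M : ℝ) - m2)|)
      ≤ AcM u (joinLaw (sphLaw N1) (sphLaw N2)) (fun _ : Fin M => cRho N1 N2 ρ) := by
  classical
  have hC0nn : 0 ≤ -Real.log (1 - θ) :=
    neg_log_one_sub_theta_nonneg θ (theta_nonneg u θ hθ) hθ1
  have hprob := bern_isProbabilityMeasure ρ hρ0 hρ1
  -- the chain
  have hchain := mixM_le_full u hu θ hθ1 hθ (joinLaw (sphLaw N1) (sphLaw N2))
    (cRho N1 N2 ρ) (blk1 N1 N2) (blk2 N1 N2) ρ hρ0 hρ1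
    (fun w hwm lo hi hlo hwlo hwhi => hOne (N1 + N2) (joinLaw (sphLaw N1) (sphLaw N2))
      inferInstance _ _ _ _ _ hρ0 (by linarith) (by ring)
      (fun i => cRho_mix N1 N2 ρ hρ0 hρ1 i) w hwm lo hi hlo hwlo hwhi) M
  have hblocks : ∀ β : Fin M → Bool,
      AcM u (joinLaw (sphLaw N1) (sphLaw N2))
          (fun a => if β a then blk1 N1 N2 else blk2 N1 N2)
        = AsphU u N1 (Finset.univ.filter (fun a => β a = true)).card
          + AsphU u N2 (Finset.univ.filter (fun a => β a = false)).card :=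
    fun β => AcM_blocks u hu θ hθ1 hθ N1 N2 M (sphLaw N1) (sphLaw N2) β
  simp_rw [hblocks] at hchain
  have hpt : ∀ β : Fin M → Bool,
      AsphU u N1 m1 + AsphU u N2 m2
        - (-Real.log (1 - θ))
          * |((Finset.univ.filter (fun a => β a = true)).card : ℝ) - m1|
        - (-Real.log (1 - θ))
          * |((Finset.univ.filter (fun a => β a = true)).card : ℝ) - ((M : ℝ) - m2)|
      ≤ AsphU u N1 (Finset.univ.filter (fun a => β a = true)).card
          + AsphU u N2 (Finset.univ.filter (fun a => β a = false)).card := by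
    intro β
    have e1 : |AsphU u N1 m1 - AsphU u N1 (Finset.univ.filter (fun a => β a = true)).card|
        ≤ -Real.log (1 - θ) * |(m1 : ℝ) - (Finset.univ.filter (fun a => β a = true)).card| :=
      AcM_lipschitz u hu θ hθ1 hθ (sphLaw N1) (fun _ : Fin N1 => (1 : ℝ)) m1
        (Finset.univ.filter (fun a => β a = true)).card
    have e2 : |AsphU u N2 m2 - AsphU u N2 (Finset.univ.filter (fun a => β a = false)).card|
        ≤ -Real.log (1 - θ) * |(m2 : ℝ) - (Finset.univ.filter (fun a => β a = false)).card| :=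
      AcM_lipschitz u hu θ hθ1 hθ (sphLaw N2) (fun _ : Fin N2 => (1 : ℝ)) m2
        (Finset.univ.filter (fun a => β a = false)).card
    rw [card_false_eq β] at e2
    have e1' := (abs_le.mp e1).2
    have e2' := (abs_le.mp e2).2
    have a1 : |(m1 : ℝ) - (Finset.univ.filter (fun a => β a = true)).card|
        = |((Finset.univ.filter (fun a => β a = true)).card : ℝ) - m1| := abs_sub_comm _ _
    have a2 : |(m2 : ℝ) - ((M : ℝ) - (Finset.univ.filter (fun a => β a = true)).card)|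
        = |((Finset.univ.filter (fun a => β a = true)).card : ℝ) - ((M : ℝ) - m2)| := by
      congr 1
      ring
    rw [a1] at e1'
    rw [a2] at e2'
    linarith
  have hint : ∀ F : (Fin M → Bool) → ℝ, Integrable F (Measure.pi (fun _ : Fin M => bern ρ)) :=
    fun F => Integrable.of_finite
  have hmono := integral_mono (hint _) (hint _) hpt
  have hdev1 := bern_abs_dev ρ hρ0 hρ1 M m1
  have hdev2 := bern_abs_dev ρ hρ0 hρ1 M ((M : ℝ) - m2)
  have hlhs : ∫ β : Fin M → Bool, (AsphU u N1 m1 + AsphU u N2 m2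
        - (-Real.log (1 - θ))
          * |((Finset.univ.filter (fun a => β a = true)).card : ℝ) - m1|
        - (-Real.log (1 - θ))
          * |((Finset.univ.filter (fun a => β a = true)).card : ℝ) - ((M : ℝ) - m2)|)
        ∂(Measure.pi (fun _ : Fin M => bern ρ))
      = AsphU u N1 m1 + AsphU u N2 m2
        - (-Real.log (1 - θ)) * ∫ β : Fin M → Bool,
            |((Finset.univ.filter (fun a => β a = true)).card : ℝ) - m1|
            ∂(Measure.pi (fun _ : Fin M => bern ρ))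
        - (-Real.log (1 - θ)) * ∫ β : Fin M → Bool,
            |((Finset.univ.filter (fun a => β a = true)).card : ℝ) - ((M : ℝ) - m2)|
            ∂(Measure.pi (fun _ : Fin M => bern ρ)) := by
    rw [integral_sub (hint _) (hint _), integral_sub (hint _) (hint _), integral_const_mul,
      integral_const_mul]
    simp
  rw [hlhs] at hmono
  have hfin1 := mul_le_mul_of_nonneg_left hdev1 hC0nn
  have hfin2 := mul_le_mul_of_nonneg_left hdev2 hC0nn
  linarith

/-- The error terms at block fraction `ρ` against those at the mean fraction `p`. -/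
lemma rho_error_bound (M m1 m2 p ρ : ℝ) (hM : 0 ≤ M) (hp0 : 0 ≤ p) (hp1 : p ≤ 1) (hρ0 : 0 ≤ ρ)
    (hρ1 : ρ ≤ 1) (hd1 : |M * p - m1| ≤ 1) (hd2 : |M * p - (M - m2)| ≤ 1) :
    (Real.sqrt (M * ρ * (1 - ρ)) + |M * ρ - m1|)
        + (Real.sqrt (M * ρ * (1 - ρ)) + |M * ρ - (M - m2)|)
      ≤ 2 * Real.sqrt (M * p * (1 - p)) + 4 + 4 * (M * |ρ - p|) := by
  have hb0 : 0 ≤ M * |ρ - p| := mul_nonneg hM (abs_nonneg _)
  have ha0 : 0 ≤ M * p * (1 - p) := mul_nonneg (mul_nonneg hM hp0) (by linarith)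
  -- the variance term
  have hvar : M * ρ * (1 - ρ) ≤ M * p * (1 - p) + M * |ρ - p| := by
    have h1 : ρ * (1 - ρ) - p * (1 - p) = (ρ - p) * (1 - ρ - p) := by ring
    have h2 : (ρ - p) * (1 - ρ - p) ≤ |ρ - p| := by
      have h3 : |(ρ - p) * (1 - ρ - p)| ≤ |ρ - p| * 1 := by
        rw [abs_mul]
        exact mul_le_mul_of_nonneg_left (abs_le.mpr ⟨by linarith, by linarith⟩) (abs_nonneg _)
      have := le_abs_self ((ρ - p) * (1 - ρ - p))
      linarith
    have h4 : M * (ρ * (1 - ρ)) ≤ M * (p * (1 - p) + |ρ - p|) :=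
      mul_le_mul_of_nonneg_left (by linarith) hM
    nlinarith
  have hsq : Real.sqrt (M * ρ * (1 - ρ))
      ≤ Real.sqrt (M * p * (1 - p)) + 1 + M * |ρ - p| := by
    have h1 : Real.sqrt (M * ρ * (1 - ρ)) ≤ Real.sqrt (M * p * (1 - p) + M * |ρ - p|) :=
      Real.sqrt_le_sqrt hvar
    have h2 : Real.sqrt (M * p * (1 - p) + M * |ρ - p|)
        ≤ Real.sqrt (M * p * (1 - p)) + Real.sqrt (M * |ρ - p|) := by
      rw [Real.sqrt_le_left (add_nonneg (Real.sqrt_nonneg _) (Real.sqrt_nonneg _))]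
      have e1 := Real.sq_sqrt ha0
      have e2 := Real.sq_sqrt hb0
      have e3 := mul_nonneg (Real.sqrt_nonneg (M * p * (1 - p))) (Real.sqrt_nonneg (M * |ρ - p|))
      nlinarith
    have h3 : Real.sqrt (M * |ρ - p|) ≤ 1 + M * |ρ - p| := by
      have e2 := Real.sq_sqrt hb0
      nlinarith [sq_nonneg (Real.sqrt (M * |ρ - p|) - 1), Real.sqrt_nonneg (M * |ρ - p|)]
    linarith
  have hab1 : |M * ρ - m1| ≤ M * |ρ - p| + 1 := by
    have h1 : M * ρ - m1 = M * (ρ - p) + (M * p - m1) := by ring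
    rw [h1]
    have h2 := abs_add_le (M * (ρ - p)) (M * p - m1)
    rw [abs_mul, abs_of_nonneg hM] at h2
    linarith
  have hab2 : |M * ρ - (M - m2)| ≤ M * |ρ - p| + 1 := by
    have h1 : M * ρ - (M - m2) = M * (ρ - p) + (M * p - (M - m2)) := by ring
    rw [h1]
    have h2 := abs_add_le (M * (ρ - p)) (M * p - (M - m2))
    rw [abs_mul, abs_of_nonneg hM] at h2
    linarith
  linarith

/-- Almost superadditivity of `N ↦ AsphU N ⌊α N⌋`. -/
theorem AsphU_almost_superadditive (hu : Continuous u) (hθ1 : θ < 1) (hθ : ∀ s, |u s| ≤ θ)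
    (hOne : OnePatternIneqM u) (α : ℝ) (hα : 0 ≤ α)
    (N1 N2 : ℕ) (hN1 : 1 ≤ N1) (hN2 : 1 ≤ N2) :
    AsphU u N1 ⌊α * N1⌋₊ + AsphU u N2 ⌊α * N2⌋₊
        - ((-Real.log (1 - θ)) * (2 * Real.sqrt α + 8 * Real.sqrt 2 * α))
          * Real.sqrt ((N1 : ℝ) * N2 / (N1 + N2))
        - (-Real.log (1 - θ)) * (4 + 32 * α)
      ≤ AsphU u (N1 + N2) ⌊α * ((N1 + N2 : ℕ) : ℝ)⌋₊ := by
  classical
  have hC0nn : 0 ≤ -Real.log (1 - θ) :=
    neg_log_one_sub_theta_nonneg θ (theta_nonneg u θ hθ) hθ1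
  have h1 : (0 : ℝ) < N1 := by exact_mod_cast hN1
  have h2 : (0 : ℝ) < N2 := by exact_mod_cast hN2
  have hNpos : (0 : ℝ) < ((N1 + N2 : ℕ) : ℝ) := by push_cast; linarith
  have hp0 : 0 ≤ (N1 : ℝ) / ((N1 + N2 : ℕ) : ℝ) := div_nonneg h1.le hNpos.le
  have hp1 : (N1 : ℝ) / ((N1 + N2 : ℕ) : ℝ) ≤ 1 := by
    rw [div_le_one hNpos]
    push_cast
    linarith
  set M : ℕ := ⌊α * ((N1 + N2 : ℕ) : ℝ)⌋₊ with hM
  set p : ℝ := (N1 : ℝ) / ((N1 + N2 : ℕ) : ℝ) with hp
  set S : ℝ := Real.sqrt ((N1 : ℝ) * N2 / (N1 + N2)) with hS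
  have hM0 : (0 : ℝ) ≤ M := Nat.cast_nonneg _
  have hd1 : |(M : ℝ) * p - (⌊α * N1⌋₊ : ℝ)| ≤ 1 := floor_dev1 α hα N1 N2 hN1 hN2
  have hd2 : |(M : ℝ) * p - ((M : ℝ) - (⌊α * N2⌋₊ : ℝ))| ≤ 1 := floor_dev2 α hα N1 N2 hN1 hN2
  have hv : Real.sqrt ((M : ℝ) * p * (1 - p)) ≤ Real.sqrt α * S := floor_var α hα N1 N2 hN1 hN2
  have hMle : (M : ℝ) ≤ α * ((N1 + N2 : ℕ) : ℝ) := Nat.floor_le (mul_nonneg hα hNpos.le)
  -- pointwise lower bound for the frozen systems
  have hpt : ∀ y : Fin (N1 + N2) → ℝ,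
      AsphU u N1 ⌊α * N1⌋₊ + AsphU u N2 ⌊α * N2⌋₊
          - (-Real.log (1 - θ)) * (2 * Real.sqrt ((M : ℝ) * p * (1 - p)) + 4)
          - (-Real.log (1 - θ)) * (4 * M) * |rhoFrac N1 N2 y - p|
        ≤ AcM u (joinLaw (sphLaw N1) (sphLaw N2))
            (fun _ : Fin M => cRho N1 N2 (rhoFrac N1 N2 y)) := by
    intro y
    have hρ0 := rhoFrac_nonneg N1 N2 y
    have hρ1 := rhoFrac_le_one N1 N2 y
    have hlow := mixM_lower u θ hu hθ1 hθ hOne N1 N2 M ⌊α * N1⌋₊ ⌊α * N2⌋₊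
      (rhoFrac N1 N2 y) hρ0 hρ1
    have herr := rho_error_bound (M : ℝ) (⌊α * N1⌋₊ : ℝ) (⌊α * N2⌋₊ : ℝ) p (rhoFrac N1 N2 y)
      hM0 hp0 hp1 hρ0 hρ1 hd1 hd2
    have herr' := mul_le_mul_of_nonneg_left herr hC0nn
    linarith
  -- integrate over the block fraction
  have hintabs : Integrable (fun y : Fin (N1 + N2) → ℝ => |rhoFrac N1 N2 y - p|)
      (gauss (N1 + N2)) := by
    refine Integrable.of_bound
      ((measurable_rhoFrac N1 N2).sub measurable_const).abs.aestronglyMeasurable 1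
      (Filter.Eventually.of_forall fun y => ?_)
    rw [Real.norm_eq_abs, abs_abs, abs_le]
    have hρ0 := rhoFrac_nonneg N1 N2 y
    have hρ1 := rhoFrac_le_one N1 N2 y
    constructor <;> linarith
  have hjoint := integrable_log_ZcM_rho u θ hu hθ1 hθ N1 N2 M (joinLaw (sphLaw N1) (sphLaw N2))
  have hintA : Integrable (fun y : Fin (N1 + N2) → ℝ =>
      AcM u (joinLaw (sphLaw N1) (sphLaw N2))
        (fun _ : Fin M => cRho N1 N2 (rhoFrac N1 N2 y))) (gauss (N1 + N2)) :=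
    hjoint.integral_prod_right
  have hmono : ∫ y : Fin (N1 + N2) → ℝ, (AsphU u N1 ⌊α * N1⌋₊ + AsphU u N2 ⌊α * N2⌋₊
          - (-Real.log (1 - θ)) * (2 * Real.sqrt ((M : ℝ) * p * (1 - p)) + 4)
          - (-Real.log (1 - θ)) * (4 * M) * |rhoFrac N1 N2 y - p|) ∂(gauss (N1 + N2))
      ≤ ∫ y : Fin (N1 + N2) → ℝ, AcM u (joinLaw (sphLaw N1) (sphLaw N2))
          (fun _ : Fin M => cRho N1 N2 (rhoFrac N1 N2 y)) ∂(gauss (N1 + N2)) :=
    integral_mono ((integrable_const _).sub (hintabs.const_mul _)) hintA hpt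
  have hlhs : ∫ y : Fin (N1 + N2) → ℝ, (AsphU u N1 ⌊α * N1⌋₊ + AsphU u N2 ⌊α * N2⌋₊
          - (-Real.log (1 - θ)) * (2 * Real.sqrt ((M : ℝ) * p * (1 - p)) + 4)
          - (-Real.log (1 - θ)) * (4 * M) * |rhoFrac N1 N2 y - p|) ∂(gauss (N1 + N2))
      = AsphU u N1 ⌊α * N1⌋₊ + AsphU u N2 ⌊α * N2⌋₊
          - (-Real.log (1 - θ)) * (2 * Real.sqrt ((M : ℝ) * p * (1 - p)) + 4)
          - (-Real.log (1 - θ)) * (4 * M)
            * ∫ y : Fin (N1 + N2) → ℝ, |rhoFrac N1 N2 y - p| ∂(gauss (N1 + N2)) := by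
    rw [integral_sub (integrable_const _) (hintabs.const_mul _), integral_const_mul]
    simp
  rw [hlhs] at hmono
  have hJ := AsphU_ge_integral u θ hu hθ1 hθ N1 N2 M
  have hdev := rhoFrac_dev N1 N2 hN1 hN2
  have hS0 : 0 ≤ S := Real.sqrt_nonneg _
  -- M * E|ρ - p| ≤ α * (2 √2 S + 8)
  have hMdev : (M : ℝ) * ∫ y : Fin (N1 + N2) → ℝ, |rhoFrac N1 N2 y - p| ∂(gauss (N1 + N2))
      ≤ α * (2 * Real.sqrt 2 * S + 8) := by
    have hnum : 0 ≤ 2 * Real.sqrt 2 * S + 8 := by positivity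
    calc (M : ℝ) * ∫ y : Fin (N1 + N2) → ℝ, |rhoFrac N1 N2 y - p| ∂(gauss (N1 + N2))
        ≤ (M : ℝ) * ((2 * Real.sqrt 2 * S + 8) / ((N1 + N2 : ℕ) : ℝ)) :=
          mul_le_mul_of_nonneg_left hdev hM0
      _ = ((M : ℝ) / ((N1 + N2 : ℕ) : ℝ)) * (2 * Real.sqrt 2 * S + 8) := by ring
      _ ≤ α * (2 * Real.sqrt 2 * S + 8) := by
          refine mul_le_mul_of_nonneg_right ?_ hnum
          rw [div_le_iff₀ hNpos]
          exact hMle
  have k1 : (-Real.log (1 - θ)) * (2 * Real.sqrt ((M : ℝ) * p * (1 - p)) + 4)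
      ≤ (-Real.log (1 - θ)) * (2 * (Real.sqrt α * S) + 4) :=
    mul_le_mul_of_nonneg_left (by linarith) hC0nn
  have k2 : (-Real.log (1 - θ)) * (4 * ((M : ℝ)
        * ∫ y : Fin (N1 + N2) → ℝ, |rhoFrac N1 N2 y - p| ∂(gauss (N1 + N2))))
      ≤ (-Real.log (1 - θ)) * (4 * (α * (2 * Real.sqrt 2 * S + 8))) :=
    mul_le_mul_of_nonneg_left (by linarith) hC0nn
  have hfin := hmono.trans hJ
  nlinarith [hfin, k1, k2]

end Vale.Agent.Lib.P157
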