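import Mathlib
import Vale.Agent.Lib.P157.Lim.Defs
import Vale.Agent.Lib.P157.Lim.ZcBasic
import Vale.Agent.Lib.P157.Lim.Fekete
import Vale.Agent.Lib.P157.PD.Defs
import Vale.Agent.Lib.P157.PD.ZcBasic
import Vale.Agent.Lib.P157.PD.MomentU
import Vale.Agent.Lib.P157.Sph.Defs
import Vale.Agent.Lib.P157.Sph.ZcBasicM
import Vale.Agent.Lib.P157.Sph.OnePatternM
import Vale.Agent.Lib.P157.Sph.AssemblyM
import Vale.Agent.Lib.P157.Sph.Polar

/-!
# P157: existence of the limiting pressure on the sphere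
-/

open MeasureTheory ProbabilityTheory Filter

namespace Vale.Agent.Lib.P157

variable (u : ℝ → ℝ) (θ : ℝ)

/-- The normalised expected log partition function on the sphere converges. -/
theorem AsphU_tendsto (hu : Continuous u) (hθ1 : θ < 1) (hθ : ∀ s, |u s| ≤ θ)
    (hOne : OnePatternIneqM u) (α : ℝ) (hα : 0 ≤ α) :
    ∃ L : ℝ, Tendsto (fun N : ℕ => AsphU u N ⌊α * N⌋₊ / N) atTop (nhds L) := by
  have hθ0 := theta_nonneg u θ hθ
  have hC0nn : 0 ≤ -Real.log (1 - θ) := neg_log_one_sub_theta_nonneg θ hθ0 hθ1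
  refine tendsto_div_of_almost_superadditive (fun N : ℕ => AsphU u N ⌊α * N⌋₊)
    ((-Real.log (1 - θ)) * (2 * Real.sqrt α + 8 * Real.sqrt 2 * α))
    ((-Real.log (1 - θ)) * (4 + 32 * α))
    (α * Real.log 2) (by positivity) (by positivity) ?_ ?_
  · intro N
    have h1 := AcM_le u θ (sphLaw N) hu hθ1 hθ (fun (_ : Fin ⌊α * N⌋₊) (_ : Fin N) => (1 : ℝ))
    have h2 : Real.log (1 + θ) ≤ Real.log 2 :=
      Real.log_le_log (by linarith) (by linarith)
    have h3 : (⌊α * N⌋₊ : ℝ) ≤ α * N := Nat.floor_le (mul_nonneg hα (Nat.cast_nonneg N))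
    have h5 : (0 : ℝ) ≤ Real.log (1 + θ) := Real.log_nonneg (by linarith)
    have h6 : (Fintype.card (Fin ⌊α * N⌋₊) : ℝ) = ⌊α * N⌋₊ := by simp
    rw [h6] at h1
    have h7 : (⌊α * N⌋₊ : ℝ) * Real.log (1 + θ) ≤ (α * N) * Real.log 2 :=
      mul_le_mul h3 h2 h5 (mul_nonneg hα (Nat.cast_nonneg N))
    show AsphU u N ⌊α * N⌋₊ ≤ (α * Real.log 2) * N
    have h8 : AsphU u N ⌊α * N⌋₊
        = AcM u (sphLaw N) (fun (_ : Fin ⌊α * N⌋₊) (_ : Fin N) => (1 : ℝ)) := rfl
    rw [h8]
    nlinarith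
  · intro m n hm hn
    exact AsphU_almost_superadditive u θ hu hθ1 hθ hOne α hα m n hm hn

/-- The partition function of the canonical spherical system as an average over the unit sphere
with its surface measure. -/
lemma ZcM_sph_eq_average (hu : Continuous u) (hθ1 : θ < 1) (hθ : ∀ s, |u s| ≤ θ)
    (N M : ℕ) (hN : 1 ≤ N) (G : Fin M → Fin N → ℝ) :
    ⨍ ω : Metric.sphere (0 : EuclideanSpace ℝ (Fin N)) 1,
        ∏ a, (1 - u (∑ i, G a i * ω.1 i)) ∂((volume : Measure (EuclideanSpace ℝ (Fin N))).toSphere)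
      = ZcM u (sphLaw N) (fun (_ : Fin M) (_ : Fin N) => (1 : ℝ)) G := by
  have hcont : Continuous (fun z : Fin N → ℝ => ∏ a, (1 - u (∑ i, G a i * z i))) := by
    fun_prop
  have hbd : ∀ z : Fin N → ℝ, |∏ a, (1 - u (∑ i, G a i * z i))| ≤ (1 + θ) ^ M := by
    intro z
    have hpos : 0 < ∏ a, (1 - u (∑ i, G a i * z i)) :=
      Finset.prod_pos fun _ _ => one_sub_u_pos u θ hθ1 hθ _
    rw [abs_of_pos hpos]
    calc ∏ a, (1 - u (∑ i, G a i * z i)) ≤ ∏ _a : Fin M, (1 + θ) :=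
        Finset.prod_le_prod (fun a _ => (one_sub_u_pos u θ hθ1 hθ _).le)
          (fun a _ => one_sub_u_upper u θ hθ _)
      _ = (1 + θ) ^ M := by simp
  have h := gauss_dir_eq_sphere N hN (fun z : Fin N → ℝ => ∏ a, (1 - u (∑ i, G a i * z i)))
    hcont.measurable _ hbd
  rw [← h]
  unfold ZcM sphLaw
  rw [integral_map measurable_dirv.aemeasurable
    (continuous_ZcM_integrand_right u hu (fun (_ : Fin M) (_ : Fin N) => (1 : ℝ))
      G).aestronglyMeasurable]
  refine integral_congr_ae (Filter.Eventually.of_forall fun x => ?_)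
  refine Finset.prod_congr rfl fun a _ => ?_
  have : ∑ i, G a i * dirv x i = ∑ i, G a i * 1 * dirv x i :=
    Finset.sum_congr rfl fun i _ => by ring
  show 1 - u (∑ i, G a i * dirv x i) = 1 - u (∑ i, G a i * 1 * dirv x i)
  rw [this]

/-- The expected pressure on the sphere in terms of `AsphU`. -/
lemma pressureSph_eq (hu : Continuous u) (hθ1 : θ < 1) (hθ : ∀ s, |u s| ≤ θ)
    (c : ℝ) (N M : ℕ) (hN : 1 ≤ N) :
    ∫ G : Fin M → Fin N → ℝ, (1 / (N : ℝ)) * Real.log
        (⨍ ω : Metric.sphere (0 : EuclideanSpace ℝ (Fin N)) 1,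
          Real.exp (∑ a, (c + Real.log (1 - u (∑ i, G a i * ω.1 i))))
          ∂((volume : Measure (EuclideanSpace ℝ (Fin N))).toSphere))
      ∂(Measure.pi (fun _ : Fin M => Measure.pi (fun _ : Fin N => gaussianReal 0 1)))
    = (M : ℝ) / N * c + AsphU u N M / N := by
  have hNpos : (0 : ℝ) < N := by exact_mod_cast hN
  have hpt : ∀ G : Fin M → Fin N → ℝ, (1 / (N : ℝ)) * Real.log
        (⨍ ω : Metric.sphere (0 : EuclideanSpace ℝ (Fin N)) 1,
          Real.exp (∑ a, (c + Real.log (1 - u (∑ i, G a i * ω.1 i))))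
          ∂((volume : Measure (EuclideanSpace ℝ (Fin N))).toSphere))
      = (M : ℝ) / N * c
        + (1 / (N : ℝ)) * Real.log (ZcM u (sphLaw N) (fun (_ : Fin M) (_ : Fin N) => (1 : ℝ)) G) := by
    intro G
    have hterm : ∀ ω : Metric.sphere (0 : EuclideanSpace ℝ (Fin N)) 1,
        Real.exp (∑ a, (c + Real.log (1 - u (∑ i, G a i * ω.1 i))))
        = Real.exp (M * c) * ∏ a, (1 - u (∑ i, G a i * ω.1 i)) := by
      intro ω
      rw [Finset.sum_add_distrib, Real.exp_add]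
      have e1 : ∑ _a : Fin M, c = (M : ℝ) * c := by simp
      have e2 : Real.exp (∑ a : Fin M, Real.log (1 - u (∑ i, G a i * ω.1 i)))
          = ∏ a : Fin M, (1 - u (∑ i, G a i * ω.1 i)) := by
        rw [Real.exp_sum]
        refine Finset.prod_congr rfl fun a _ => ?_
        exact Real.exp_log (one_sub_u_pos u θ hθ1 hθ _)
      rw [e1, e2]
    simp_rw [hterm]
    have havg : ⨍ ω : Metric.sphere (0 : EuclideanSpace ℝ (Fin N)) 1,
          Real.exp (M * c) * ∏ a, (1 - u (∑ i, G a i * ω.1 i))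
          ∂((volume : Measure (EuclideanSpace ℝ (Fin N))).toSphere)
        = Real.exp (M * c) * ⨍ ω : Metric.sphere (0 : EuclideanSpace ℝ (Fin N)) 1,
          ∏ a, (1 - u (∑ i, G a i * ω.1 i))
          ∂((volume : Measure (EuclideanSpace ℝ (Fin N))).toSphere) := by
      rw [average_eq, average_eq, integral_const_mul, smul_eq_mul, smul_eq_mul]
      ring
    rw [havg, ZcM_sph_eq_average u θ hu hθ1 hθ N M hN G]
    have hZpos := ZcM_pos u θ (sphLaw N) hu hθ1 hθ (fun (_ : Fin M) (_ : Fin N) => (1 : ℝ)) G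
    rw [Real.log_mul (Real.exp_pos _).ne' hZpos.ne', Real.log_exp]
    field_simp
  simp_rw [hpt]
  have hint := integrable_log_ZcM u θ (sphLaw N) hu hθ1 hθ
    (fun (_ : Fin M) (_ : Fin N) => (1 : ℝ))
    (Measure.pi (fun _ : Fin M => Measure.pi (fun _ : Fin N => gaussianReal 0 1)))
  have hA : ∫ G, Real.log (ZcM u (sphLaw N) (fun (_ : Fin M) (_ : Fin N) => (1 : ℝ)) G)
      ∂(Measure.pi (fun _ : Fin M => Measure.pi (fun _ : Fin N => gaussianReal 0 1)))
      = AsphU u N M := rfl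
  rw [integral_add (integrable_const _) (hint.const_mul _), integral_const,
    integral_const_mul (1 / (N : ℝ)), hA]
  simp
  ring

/-- Existence of the limiting pressure on the sphere for `f s = c + log (1 - u s)`, abstract
`u`. -/
theorem pressureSph_tendsto (hu : Continuous u) (hθ1 : θ < 1) (hθ : ∀ s, |u s| ≤ θ)
    (hOne : OnePatternIneqM u) (c α : ℝ) (hα : 0 < α) :
    ∃ L : ℝ, Tendsto (fun N : ℕ =>
      ∫ G : Fin ⌊α * N⌋₊ → Fin N → ℝ, (1 / (N : ℝ)) * Real.log
        (⨍ ω : Metric.sphere (0 : EuclideanSpace ℝ (Fin N)) 1,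
          Real.exp (∑ a, (c + Real.log (1 - u (∑ i, G a i * ω.1 i))))
          ∂((volume : Measure (EuclideanSpace ℝ (Fin N))).toSphere))
      ∂(Measure.pi (fun _ : Fin ⌊α * N⌋₊ => Measure.pi (fun _ : Fin N => gaussianReal 0 1))))
      atTop (nhds L) := by
  obtain ⟨L, hL⟩ := AsphU_tendsto u θ hu hθ1 hθ hOne α hα.le
  refine ⟨α * c + L, ?_⟩
  have hfl : Tendsto (fun N : ℕ => (⌊α * (N : ℝ)⌋₊ : ℝ) / (N : ℝ)) atTop (nhds α) :=
    (tendsto_nat_floor_mul_div_atTop hα.le).comp tendsto_natCast_atTop_atTop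
  have hlim : Tendsto (fun N : ℕ => (⌊α * (N : ℝ)⌋₊ : ℝ) / (N : ℝ) * c
      + AsphU u N ⌊α * N⌋₊ / N) atTop (nhds (α * c + L)) :=
    (hfl.mul_const c).add hL
  refine hlim.congr' ?_
  filter_upwards [eventually_ge_atTop 1] with N hN
  exact (pressureSph_eq u θ hu hθ1 hθ c N ⌊α * N⌋₊ hN).symm

/-- **Existence of the limiting pressure on the sphere** for the potentials
`f s = c + log (1 - u s)`, where `u s = ∫ t, cos (t * s) ∂ν` is the cosine transform of a
measure `ν` on the real line of total mass less than one, at every pattern density `α > 0`.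
The configuration `x = √N ω` runs over the sphere of radius `√N`, `ω` over the unit sphere with
its normalised surface measure, so that `g · x / √N = g · ω`. -/
theorem pressureSph_tendsto_PD (ν : Measure ℝ) (hν : ν Set.univ < 1) (c α : ℝ) (hα : 0 < α) :
    ∃ L : ℝ, Tendsto (fun N : ℕ =>
      ∫ G : Fin ⌊α * N⌋₊ → Fin N → ℝ, (1 / (N : ℝ)) * Real.log
        (⨍ ω : Metric.sphere (0 : EuclideanSpace ℝ (Fin N)) 1,
          Real.exp (∑ a, (c + Real.log (1 - ∫ t, Real.cos (t * (∑ i, G a i * ω.1 i)) ∂ν)))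
          ∂((volume : Measure (EuclideanSpace ℝ (Fin N))).toSphere))
      ∂(Measure.pi (fun _ : Fin ⌊α * N⌋₊ => Measure.pi (fun _ : Fin N => gaussianReal 0 1))))
      atTop (nhds L) := by
  have : IsFiniteMeasure ν := ⟨hν.trans ENNReal.one_lt_top⟩
  have hν' : ν.real Set.univ < 1 := by
    have h := (ENNReal.toReal_lt_toReal (measure_ne_top ν Set.univ) ENNReal.one_ne_top).mpr hν
    simpa [Measure.real] using h
  exact pressureSph_tendsto (cosT ν) (ν.real Set.univ) (continuous_cosT ν) hν'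
    (abs_cosT_le ν) (onePatternIneqM_cosT ν hν') c α hα

end Vale.Agent.Lib.P157
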