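import Mathlib
import Vale.Agent.Lib.P157.PD.LimitU
import Vale.Agent.Lib.P157.Sph.LimitM

/-!
# P157: existence of the limiting pressure on both configuration spaces
-/

open MeasureTheory ProbabilityTheory Filter

namespace Vale.Agent.Lib.P157

/-- The spherical statement with the configuration `x = √N ω` written out. -/
theorem pressureSph_tendsto_PD' (ν : Measure ℝ) (hν : ν Set.univ < 1) (c α : ℝ) (hα : 0 < α) :
    ∃ L : ℝ, Tendsto (fun N : ℕ =>
      ∫ G : Fin ⌊α * N⌋₊ → Fin N → ℝ, (1 / (N : ℝ)) * Real.log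
        (⨍ ω : Metric.sphere (0 : EuclideanSpace ℝ (Fin N)) 1,
          Real.exp (∑ a, (c + Real.log (1 - ∫ t, Real.cos
            (t * ((∑ i, G a i * (Real.sqrt N * ω.1 i)) / Real.sqrt N)) ∂ν)))
          ∂((volume : Measure (EuclideanSpace ℝ (Fin N))).toSphere))
      ∂(Measure.pi (fun _ : Fin ⌊α * N⌋₊ => Measure.pi (fun _ : Fin N => gaussianReal 0 1))))
      atTop (nhds L) := by
  obtain ⟨L, hL⟩ := pressureSph_tendsto_PD ν hν c α hα
  refine ⟨L, hL.congr' ?_⟩
  filter_upwards [eventually_ge_atTop 1] with N hN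
  have hs : Real.sqrt N ≠ 0 := (Real.sqrt_pos.mpr (by exact_mod_cast hN)).ne'
  have key : ∀ (G : Fin ⌊α * N⌋₊ → Fin N → ℝ) (a : Fin ⌊α * N⌋₊)
      (ω : Metric.sphere (0 : EuclideanSpace ℝ (Fin N)) 1),
      (∑ i, G a i * (Real.sqrt N * ω.1 i)) / Real.sqrt N = ∑ i, G a i * ω.1 i := by
    intro G a ω
    rw [Finset.sum_div]
    refine Finset.sum_congr rfl fun i _ => ?_
    field_simp
  simp_rw [key]

/-- **Existence of the limiting pressure on both configuration spaces** (Ising cube and sphere)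
for the potentials `f s = c + log (1 - u s)`, `u` the cosine transform of a measure of total mass
less than one, at every pattern density `α > 0`. -/
theorem pressure_tendsto_both (ν : Measure ℝ) (hν : ν Set.univ < 1) (c α : ℝ) (hα : 0 < α) :
    (∃ L : ℝ, Tendsto (fun N : ℕ =>
      ∫ G : Fin ⌊α * N⌋₊ → Fin N → ℝ, (1 / (N : ℝ)) * Real.log ((∑ x : Fin N → Bool,
        Real.exp (∑ a, (c + Real.log (1 - ∫ t, Real.cos
          (t * ((∑ i, G a i * (if x i then 1 else -1)) / Real.sqrt N)) ∂ν)))) / 2 ^ N)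
      ∂(Measure.pi (fun _ : Fin ⌊α * N⌋₊ => Measure.pi (fun _ : Fin N => gaussianReal 0 1))))
      atTop (nhds L)) ∧
    (∃ L : ℝ, Tendsto (fun N : ℕ =>
      ∫ G : Fin ⌊α * N⌋₊ → Fin N → ℝ, (1 / (N : ℝ)) * Real.log
        (⨍ ω : Metric.sphere (0 : EuclideanSpace ℝ (Fin N)) 1,
          Real.exp (∑ a, (c + Real.log (1 - ∫ t, Real.cos
            (t * ((∑ i, G a i * (Real.sqrt N * ω.1 i)) / Real.sqrt N)) ∂ν)))
          ∂((volume : Measure (EuclideanSpace ℝ (Fin N))).toSphere))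
      ∂(Measure.pi (fun _ : Fin ⌊α * N⌋₊ => Measure.pi (fun _ : Fin N => gaussianReal 0 1))))
      atTop (nhds L)) :=
  ⟨pressure_tendsto_PD ν hν c α hα, pressureSph_tendsto_PD' ν hν c α hα⟩

end Vale.Agent.Lib.P157
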