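import Mathlib
import Vale.Agent.Lib.P157.Lim.Defs
import Vale.Agent.Lib.P157.Lim.ZcBasic
import Vale.Agent.Lib.P157.PD.Defs
import Vale.Agent.Lib.P157.PD.ZcBasic
import Vale.Agent.Lib.P157.Sph.Defs
import Vale.Agent.Lib.P157.Sph.ZcBasicM

/-!
# P157: the deviation of the block fraction of a standard Gaussian vector

`E |rhoFrac - N1 / N| ≤ (2 √2 √(N1 N2 / N) + 8) / N` under `gauss (N1 + N2)`, from the second
moments of centred squares of independent standard Gaussians.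
-/

open MeasureTheory ProbabilityTheory

namespace Vale.Agent.Lib.P157

/-- derivative of a function times the Gaussian generating function -/
lemma rhodev_hasDerivAt (P : ℝ → ℝ) (P' : ℝ) (t : ℝ) (hP : HasDerivAt P P' t) :
    HasDerivAt (fun s => P s * Real.exp (s ^ 2 / 2))
      ((P' + t * P t) * Real.exp (t ^ 2 / 2)) t := by
  have h1 : HasDerivAt (fun s : ℝ => s ^ 2 / 2) t t := by
    have h := (hasDerivAt_pow 2 t).div_const 2
    have e : ((2 : ℕ) : ℝ) * t ^ (2 - 1) / 2 = t := by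
      norm_num
    rw [e] at h
    exact h
  have hE : HasDerivAt (fun s : ℝ => Real.exp (s ^ 2 / 2)) (Real.exp (t ^ 2 / 2) * t) t := h1.exp
  have h2 := hP.mul hE
  have e2 : P' * Real.exp (t ^ 2 / 2) + P t * (Real.exp (t ^ 2 / 2) * t) =
      (P' + t * P t) * Real.exp (t ^ 2 / 2) := by ring
  rw [e2] at h2
  exact h2

lemma rhodev_deriv1 : deriv (fun t : ℝ => Real.exp (t ^ 2 / 2)) =
    fun t => t * Real.exp (t ^ 2 / 2) := by
  funext t
  have h := rhodev_hasDerivAt (fun _ => 1) 0 t (hasDerivAt_const t 1)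
  simp only [one_mul, zero_add, mul_one] at h
  exact h.deriv

lemma rhodev_deriv2 : deriv (fun t : ℝ => t * Real.exp (t ^ 2 / 2)) =
    fun t => (1 + t ^ 2) * Real.exp (t ^ 2 / 2) := by
  funext t
  have h := rhodev_hasDerivAt (fun s => s) 1 t (hasDerivAt_id t)
  rw [h.deriv]
  ring

lemma rhodev_deriv3 : deriv (fun t : ℝ => (1 + t ^ 2) * Real.exp (t ^ 2 / 2)) =
    fun t => (3 * t + t ^ 3) * Real.exp (t ^ 2 / 2) := by
  funext t
  have hP : HasDerivAt (fun s : ℝ => 1 + s ^ 2) (2 * t) t := by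
    have h := (hasDerivAt_pow 2 t).const_add 1
    have e : ((2 : ℕ) : ℝ) * t ^ (2 - 1) = 2 * t := by norm_num
    rw [e] at h
    exact h
  have h := rhodev_hasDerivAt (fun s => 1 + s ^ 2) (2 * t) t hP
  rw [h.deriv]
  ring

lemma rhodev_deriv4 : deriv (fun t : ℝ => (3 * t + t ^ 3) * Real.exp (t ^ 2 / 2)) =
    fun t => (3 + 6 * t ^ 2 + t ^ 4) * Real.exp (t ^ 2 / 2) := by
  funext t
  have hP : HasDerivAt (fun s : ℝ => 3 * s + s ^ 3) (3 + 3 * t ^ 2) t := by
    have h := ((hasDerivAt_id t).const_mul 3).add (hasDerivAt_pow 3 t)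
    have e : (3 : ℝ) * 1 + ((3 : ℕ) : ℝ) * t ^ (3 - 1) = 3 + 3 * t ^ 2 := by norm_num
    rw [e] at h
    exact h
  have h := rhodev_hasDerivAt (fun s => 3 * s + s ^ 3) (3 + 3 * t ^ 2) t hP
  rw [h.deriv]
  ring

lemma rhodev_mgf : mgf (fun x : ℝ => x) (gaussianReal 0 1) = fun t => Real.exp (t ^ 2 / 2) := by
  rw [mgf_fun_id_gaussianReal]
  funext t
  simp

lemma rhodev_moment (k : ℕ) :
    ∫ x, x ^ k ∂(gaussianReal 0 1) =
      iteratedDeriv k (fun t : ℝ => Real.exp (t ^ 2 / 2)) 0 := by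
  rw [← rhodev_mgf, iteratedDeriv_mgf_zero]
  · rfl
  · simp

lemma rhodev_moment2 : ∫ x, x ^ 2 ∂(gaussianReal 0 1) = 1 := by
  rw [rhodev_moment, iteratedDeriv_succ', iteratedDeriv_succ', iteratedDeriv_zero, rhodev_deriv1,
    rhodev_deriv2]
  norm_num

lemma rhodev_moment4 : ∫ x, x ^ 4 ∂(gaussianReal 0 1) = 3 := by
  rw [rhodev_moment, iteratedDeriv_succ', iteratedDeriv_succ', iteratedDeriv_succ',
    iteratedDeriv_succ', iteratedDeriv_zero, rhodev_deriv1, rhodev_deriv2, rhodev_deriv3,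
    rhodev_deriv4]
  norm_num

lemma rhodev_integrable_pow4 : Integrable (fun x : ℝ => x ^ 4) (gaussianReal 0 1) := by
  have h : MemLp (id : ℝ → ℝ) ((4 : ℕ) : ENNReal) (gaussianReal 0 1) :=
    memLp_id_gaussianReal' _ (ENNReal.natCast_ne_top 4)
  have h2 := h.integrable_norm_pow (by norm_num)
  refine h2.congr (Filter.Eventually.of_forall fun x => ?_)
  show ‖id x‖ ^ 4 = x ^ 4
  rw [id, Real.norm_eq_abs, Even.pow_abs (by decide)]

lemma rhodev_integrable_pow2 : Integrable (fun x : ℝ => x ^ 2) (gaussianReal 0 1) := by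
  have h : MemLp (id : ℝ → ℝ) ((2 : ℕ) : ENNReal) (gaussianReal 0 1) :=
    memLp_id_gaussianReal' _ (ENNReal.natCast_ne_top 2)
  have h2 := h.integrable_norm_pow (by norm_num)
  refine h2.congr (Filter.Eventually.of_forall fun x => ?_)
  show ‖id x‖ ^ 2 = x ^ 2
  rw [id, Real.norm_eq_abs, Even.pow_abs (by decide)]

lemma rhodev_phi_sq_integrable :
    Integrable (fun x : ℝ => (x ^ 2 - 1) ^ 2) (gaussianReal 0 1) := by
  have h : (fun x : ℝ => (x ^ 2 - 1) ^ 2) = fun x => x ^ 4 - 2 * x ^ 2 + 1 := by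
    funext x
    ring
  rw [h]
  exact (rhodev_integrable_pow4.sub (rhodev_integrable_pow2.const_mul 2)).add (integrable_const 1)

lemma rhodev_phi_integral : ∫ x : ℝ, (x ^ 2 - 1) ∂(gaussianReal 0 1) = 0 := by
  rw [integral_sub rhodev_integrable_pow2 (integrable_const 1), rhodev_moment2, integral_const,
    probReal_univ, one_smul, sub_self]

lemma rhodev_phi_sq_integral : ∫ x : ℝ, (x ^ 2 - 1) ^ 2 ∂(gaussianReal 0 1) = 2 := by
  have h : (fun x : ℝ => (x ^ 2 - 1) ^ 2) = fun x => x ^ 4 - 2 * x ^ 2 + 1 := by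
    funext x
    ring
  have hi1 : Integrable (fun x : ℝ => x ^ 4 - 2 * x ^ 2) (gaussianReal 0 1) :=
    rhodev_integrable_pow4.sub (rhodev_integrable_pow2.const_mul 2)
  have hi2 : Integrable (fun x : ℝ => 2 * x ^ 2) (gaussianReal 0 1) :=
    rhodev_integrable_pow2.const_mul 2
  rw [h, integral_add hi1 (integrable_const 1), integral_sub rhodev_integrable_pow4 hi2,
    integral_const_mul, rhodev_moment4, rhodev_moment2, integral_const, probReal_univ, one_smul]
  norm_num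

section rhodevVector

variable {n : ℕ}

/-- the centred square of the coordinate `i`, with weight `a i` -/
noncomputable def rhodev_X (a : Fin n → ℝ) (i : Fin n) (y : Fin n → ℝ) : ℝ :=
  a i * (y i ^ 2 - 1)

lemma rhodev_X_measurable (a : Fin n → ℝ) (i : Fin n) : Measurable (rhodev_X a i) := by
  unfold rhodev_X
  fun_prop

lemma rhodev_X_memLp (a : Fin n → ℝ) (i : Fin n) : MemLp (rhodev_X a i) 2 (gauss n) := by
  have h1 : MemLp (fun x : ℝ => a i * (x ^ 2 - 1)) 2 (gaussianReal 0 1) := by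
    rw [memLp_two_iff_integrable_sq
      (by fun_prop : Measurable fun x : ℝ => a i * (x ^ 2 - 1)).aestronglyMeasurable]
    have h : (fun x : ℝ => (a i * (x ^ 2 - 1)) ^ 2) = fun x => a i ^ 2 * (x ^ 2 - 1) ^ 2 := by
      funext x
      ring
    rw [h]
    exact rhodev_phi_sq_integrable.const_mul _
  exact h1.comp_measurePreserving (measurePreserving_eval (fun _ : Fin n => gaussianReal 0 1) i)

lemma rhodev_map_eval (i : Fin n) : (gauss n).map (Function.eval i) = gaussianReal 0 1 :=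
  (measurePreserving_eval (fun _ : Fin n => gaussianReal 0 1) i).map_eq

lemma rhodev_X_integral (a : Fin n → ℝ) (i : Fin n) : ∫ y, rhodev_X a i y ∂(gauss n) = 0 := by
  have h := integral_map (μ := gauss n) (φ := Function.eval i)
    (measurable_pi_apply i).aemeasurable (f := fun x : ℝ => a i * (x ^ 2 - 1))
    (by fun_prop : Measurable fun x : ℝ => a i * (x ^ 2 - 1)).aestronglyMeasurable
  rw [rhodev_map_eval, integral_const_mul, rhodev_phi_integral, mul_zero] at h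
  exact h.symm

lemma rhodev_X_sq_integral (a : Fin n → ℝ) (i : Fin n) :
    ∫ y, rhodev_X a i y ^ 2 ∂(gauss n) = 2 * a i ^ 2 := by
  have h := integral_map (μ := gauss n) (φ := Function.eval i)
    (measurable_pi_apply i).aemeasurable (f := fun x : ℝ => a i ^ 2 * (x ^ 2 - 1) ^ 2)
    (by fun_prop : Measurable fun x : ℝ => a i ^ 2 * (x ^ 2 - 1) ^ 2).aestronglyMeasurable
  rw [rhodev_map_eval, integral_const_mul, rhodev_phi_sq_integral] at h
  have h2 : (fun y : Fin n → ℝ => rhodev_X a i y ^ 2) =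
      fun y => a i ^ 2 * (Function.eval i y ^ 2 - 1) ^ 2 := by
    funext y
    unfold rhodev_X
    show (a i * (y i ^ 2 - 1)) ^ 2 = a i ^ 2 * (y i ^ 2 - 1) ^ 2
    ring
  rw [h2, ← h]
  ring

lemma rhodev_sum_memLp (a : Fin n → ℝ) :
    MemLp (fun y : Fin n → ℝ => ∑ i, rhodev_X a i y) 2 (gauss n) :=
  memLp_finsetSum _ (fun i _ => rhodev_X_memLp a i)

lemma rhodev_sum_integral (a : Fin n → ℝ) : ∫ y, (∑ i, rhodev_X a i y) ∂(gauss n) = 0 := by
  rw [integral_finsetSum _ (fun i _ => (rhodev_X_memLp a i).integrable one_le_two)]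
  exact Finset.sum_eq_zero (fun i _ => rhodev_X_integral a i)

/-- the second moment of a weighted sum of centred squares of independent standard Gaussians -/
lemma rhodev_sum_sq_integral (a : Fin n → ℝ) :
    ∫ y, (∑ i, rhodev_X a i y) ^ 2 ∂(gauss n) = 2 * ∑ i, a i ^ 2 := by
  have hind : iIndepFun (fun i (y : Fin n → ℝ) => rhodev_X a i y) (gauss n) := by
    unfold gauss
    exact iIndepFun_pi (X := fun i (x : ℝ) => a i * (x ^ 2 - 1))
      (fun i => (by fun_prop : Measurable fun x : ℝ => a i * (x ^ 2 - 1)).aemeasurable)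
  have hvar := IndepFun.variance_sum (μ := gauss n) (X := fun i => rhodev_X a i)
    (s := Finset.univ) (fun i _ => rhodev_X_memLp a i) (fun i _ j _ hij => hind.indepFun hij)
  have hfun : (∑ i, rhodev_X a i) = fun y => ∑ i, rhodev_X a i y := by
    funext y
    exact Finset.sum_apply _ _ _
  have hmeas : Measurable (∑ i, rhodev_X a i) := by
    rw [hfun]
    exact Finset.measurable_sum _ (fun i _ => rhodev_X_measurable a i)
  rw [variance_eq_integral hmeas.aemeasurable] at hvar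
  have e1 : ∫ x, (∑ i, rhodev_X a i) x ∂(gauss n) = 0 := by
    simp only [Finset.sum_apply]
    exact rhodev_sum_integral a
  rw [e1] at hvar
  simp only [sub_zero, Finset.sum_apply] at hvar
  rw [hvar, Finset.mul_sum]
  refine Finset.sum_congr rfl (fun i _ => ?_)
  rw [variance_eq_integral (rhodev_X_measurable a i).aemeasurable, rhodev_X_integral]
  simp only [sub_zero]
  exact rhodev_X_sq_integral a i

end rhodevVector

/-- the first absolute moment is at most the root of the second moment -/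
lemma rhodev_l1_le {Ω : Type*} [MeasurableSpace Ω] (μ : Measure Ω) [IsProbabilityMeasure μ]
    (f : Ω → ℝ) (hf : MemLp f 2 μ) :
    ∫ ω, |f ω| ∂μ ≤ Real.sqrt (∫ ω, f ω ^ 2 ∂μ) := by
  have hsq : Integrable (fun ω => f ω ^ 2) μ :=
    (memLp_two_iff_integrable_sq hf.aestronglyMeasurable).1 hf
  have habs : Integrable (fun ω => |f ω|) μ := (hf.integrable one_le_two).abs
  have h0 : 0 ≤ ∫ ω, (|f ω| - ∫ x, |f x| ∂μ) ^ 2 ∂μ := integral_nonneg (fun ω => sq_nonneg _)
  have h1 : (fun ω => (|f ω| - ∫ x, |f x| ∂μ) ^ 2) =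
      fun ω => f ω ^ 2 - 2 * (∫ x, |f x| ∂μ) * |f ω| + (∫ x, |f x| ∂μ) ^ 2 := by
    funext ω
    have := sq_abs (f ω)
    nlinarith
  have hi2 : Integrable (fun ω => 2 * (∫ x, |f x| ∂μ) * |f ω|) μ := habs.const_mul _
  have hi1 : Integrable (fun ω => f ω ^ 2 - 2 * (∫ x, |f x| ∂μ) * |f ω|) μ := hsq.sub hi2
  rw [h1, integral_add hi1 (integrable_const _), integral_sub hsq hi2, integral_const_mul,
    integral_const, probReal_univ, one_smul] at h0
  have h2 : (∫ ω, |f ω| ∂μ) ^ 2 ≤ ∫ ω, f ω ^ 2 ∂μ := by nlinarith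
  exact le_trans (le_abs_self _) (Real.abs_le_sqrt h2)

/-- the pointwise bound, as an inequality between real numbers -/
lemma rhodev_real (A B S1 S2 : ℝ) (hA : 1 ≤ A) (hB : 1 ≤ B) (hS1 : 0 ≤ S1) (hS2 : 0 ≤ S2) :
    |S1 / (S1 + S2) - A / (A + B)| ≤
      2 / (A + B) * |(B * S1 - A * S2) / (A + B)| +
        4 / (A + B) ^ 2 * (S1 + S2 - (A + B)) ^ 2 := by
  have hN : 0 < A + B := by linarith
  by_cases hD : (A + B) / 2 ≤ S1 + S2
  · have hDpos : 0 < S1 + S2 := by linarith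
    have key : S1 / (S1 + S2) - A / (A + B) = ((B * S1 - A * S2) / (A + B)) / (S1 + S2) := by
      field_simp
      ring
    rw [key, abs_div, abs_of_pos hDpos]
    have h1 : 1 ≤ 2 / (A + B) * (S1 + S2) := by
      rw [div_mul_eq_mul_div, le_div_iff₀ hN]
      linarith
    have h2 : |(B * S1 - A * S2) / (A + B)| / (S1 + S2) ≤
        2 / (A + B) * |(B * S1 - A * S2) / (A + B)| := by
      rw [div_le_iff₀ hDpos]
      have h3 := abs_nonneg ((B * S1 - A * S2) / (A + B))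
      nlinarith
    have h4 : 0 ≤ 4 / (A + B) ^ 2 * (S1 + S2 - (A + B)) ^ 2 := by positivity
    linarith
  · rw [not_le] at hD
    have h1 : |S1 / (S1 + S2) - A / (A + B)| ≤ 1 := by
      have hx0 : 0 ≤ S1 / (S1 + S2) := div_nonneg hS1 (add_nonneg hS1 hS2)
      have hx1 : S1 / (S1 + S2) ≤ 1 := div_le_one_of_le₀ (by linarith) (add_nonneg hS1 hS2)
      have hp0 : 0 ≤ A / (A + B) := div_nonneg (by linarith) hN.le
      have hp1 : A / (A + B) ≤ 1 := by
        rw [div_le_one hN]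
        linarith
      rw [abs_le]
      constructor
      · linarith
      · linarith
    have h2 : 1 ≤ 4 / (A + B) ^ 2 * (S1 + S2 - (A + B)) ^ 2 := by
      rw [div_mul_eq_mul_div, le_div_iff₀ (by positivity)]
      nlinarith
    have h3 : 0 ≤ 2 / (A + B) * |(B * S1 - A * S2) / (A + B)| := by positivity
    linarith

section rhodevMain

variable (N1 N2 : ℕ)

/-- the weights of the numerator of `rhoFrac - N1 / N` -/
noncomputable def rhodev_a : Fin (N1 + N2) → ℝ :=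
  Fin.append (fun _ : Fin N1 => (N2 : ℝ) / ((N1 : ℝ) + N2))
    (fun _ : Fin N2 => -((N1 : ℝ) / ((N1 : ℝ) + N2)))

lemma rhodev_T_eq (hN : 0 < (N1 : ℝ) + N2) (y : Fin (N1 + N2) → ℝ) :
    ∑ i, rhodev_X (rhodev_a N1 N2) i y =
      ((N2 : ℝ) * (∑ j : Fin N1, y (Fin.castAdd N2 j) ^ 2) -
        N1 * (∑ j : Fin N2, y (Fin.natAdd N1 j) ^ 2)) / ((N1 : ℝ) + N2) := by
  rw [Fin.sum_univ_add]
  unfold rhodev_X rhodev_a
  simp only [Fin.append_left, Fin.append_right]
  rw [← Finset.mul_sum, ← Finset.mul_sum, Finset.sum_sub_distrib, Finset.sum_sub_distrib,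
    Finset.sum_const, Finset.sum_const, Finset.card_univ, Finset.card_univ, Fintype.card_fin,
    Fintype.card_fin, nsmul_eq_mul, nsmul_eq_mul, mul_one, mul_one]
  field_simp
  ring

lemma rhodev_E_eq (y : Fin (N1 + N2) → ℝ) :
    ∑ i, rhodev_X (fun _ => 1) i y =
      (∑ j : Fin N1, y (Fin.castAdd N2 j) ^ 2) + (∑ j : Fin N2, y (Fin.natAdd N1 j) ^ 2) -
        ((N1 : ℝ) + N2) := by
  unfold rhodev_X
  simp only [one_mul]
  rw [Finset.sum_sub_distrib, Fin.sum_univ_add, Finset.sum_const, Finset.card_univ,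
    Fintype.card_fin, nsmul_eq_mul, mul_one, Nat.cast_add]

lemma rhodev_rho_eq (y : Fin (N1 + N2) → ℝ) :
    rhoFrac N1 N2 y = (∑ j : Fin N1, y (Fin.castAdd N2 j) ^ 2) /
      ((∑ j : Fin N1, y (Fin.castAdd N2 j) ^ 2) + (∑ j : Fin N2, y (Fin.natAdd N1 j) ^ 2)) := by
  unfold rhoFrac
  rw [Fin.sum_univ_add]

lemma rhodev_pointwise (hN1 : 1 ≤ N1) (hN2 : 1 ≤ N2) (y : Fin (N1 + N2) → ℝ) :
    |rhoFrac N1 N2 y - (N1 : ℝ) / ((N1 : ℝ) + N2)| ≤
      2 / ((N1 : ℝ) + N2) * |∑ i, rhodev_X (rhodev_a N1 N2) i y| +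
        4 / ((N1 : ℝ) + N2) ^ 2 * (∑ i, rhodev_X (fun _ => 1) i y) ^ 2 := by
  have hA : (1 : ℝ) ≤ N1 := by exact_mod_cast hN1
  have hB : (1 : ℝ) ≤ N2 := by exact_mod_cast hN2
  rw [rhodev_T_eq N1 N2 (by linarith) y, rhodev_E_eq, rhodev_rho_eq]
  exact rhodev_real N1 N2 _ _ hA hB (Finset.sum_nonneg fun j _ => sq_nonneg _)
    (Finset.sum_nonneg fun j _ => sq_nonneg _)

lemma rhodev_sum_a_sq (hN : 0 < (N1 : ℝ) + N2) :
    ∑ i, rhodev_a N1 N2 i ^ 2 = (N1 : ℝ) * N2 / ((N1 : ℝ) + N2) := by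
  rw [Fin.sum_univ_add]
  unfold rhodev_a
  simp only [Fin.append_left, Fin.append_right]
  rw [Finset.sum_const, Finset.sum_const, Finset.card_univ, Finset.card_univ, Fintype.card_fin,
    Fintype.card_fin, nsmul_eq_mul, nsmul_eq_mul]
  field_simp
  ring

end rhodevMain

theorem rhoFrac_dev (N1 N2 : ℕ) (hN1 : 1 ≤ N1) (hN2 : 1 ≤ N2) :
    ∫ y, |rhoFrac N1 N2 y - (N1 : ℝ) / ((N1 + N2 : ℕ) : ℝ)| ∂(gauss (N1 + N2))
      ≤ (2 * Real.sqrt 2 * Real.sqrt ((N1 : ℝ) * N2 / (N1 + N2)) + 8) / ((N1 + N2 : ℕ) : ℝ) := by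
  have hA : (1 : ℝ) ≤ N1 := by exact_mod_cast hN1
  have hB : (1 : ℝ) ≤ N2 := by exact_mod_cast hN2
  have hN : 0 < (N1 : ℝ) + N2 := by linarith
  rw [Nat.cast_add]
  have hT2 := rhodev_sum_memLp (rhodev_a N1 N2)
  have hE2 := rhodev_sum_memLp (fun _ : Fin (N1 + N2) => (1 : ℝ))
  have hTabs : Integrable (fun y : Fin (N1 + N2) → ℝ => |∑ i, rhodev_X (rhodev_a N1 N2) i y|)
      (gauss (N1 + N2)) := (hT2.integrable one_le_two).abs
  have hEsq : Integrable (fun y : Fin (N1 + N2) → ℝ =>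
      (∑ i, rhodev_X (fun _ => 1) i y) ^ 2) (gauss (N1 + N2)) :=
    (memLp_two_iff_integrable_sq hE2.aestronglyMeasurable).1 hE2
  have hL : Integrable (fun y : Fin (N1 + N2) → ℝ =>
      |rhoFrac N1 N2 y - (N1 : ℝ) / ((N1 : ℝ) + N2)|) (gauss (N1 + N2)) := by
    refine Integrable.of_bound (C := 1) ?_ (Filter.Eventually.of_forall fun y => ?_)
    · exact (continuous_abs.measurable.comp
        ((measurable_rhoFrac N1 N2).sub_const _)).aestronglyMeasurable
    · rw [Real.norm_eq_abs, abs_abs, abs_le]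
      have h1 := rhoFrac_nonneg N1 N2 y
      have h2 := rhoFrac_le_one N1 N2 y
      have hp0 : 0 ≤ (N1 : ℝ) / ((N1 : ℝ) + N2) := div_nonneg (by linarith) hN.le
      have hp1 : (N1 : ℝ) / ((N1 : ℝ) + N2) ≤ 1 := by
        rw [div_le_one hN]
        linarith
      constructor
      · linarith
      · linarith
  have hR1 : Integrable (fun y : Fin (N1 + N2) → ℝ =>
      2 / ((N1 : ℝ) + N2) * |∑ i, rhodev_X (rhodev_a N1 N2) i y|) (gauss (N1 + N2)) :=
    hTabs.const_mul _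
  have hR2 : Integrable (fun y : Fin (N1 + N2) → ℝ =>
      4 / ((N1 : ℝ) + N2) ^ 2 * (∑ i, rhodev_X (fun _ => 1) i y) ^ 2) (gauss (N1 + N2)) :=
    hEsq.const_mul _
  have h1 : ∫ y, |rhoFrac N1 N2 y - (N1 : ℝ) / ((N1 : ℝ) + N2)| ∂(gauss (N1 + N2)) ≤
      ∫ y, (2 / ((N1 : ℝ) + N2) * |∑ i, rhodev_X (rhodev_a N1 N2) i y| +
        4 / ((N1 : ℝ) + N2) ^ 2 * (∑ i, rhodev_X (fun _ => 1) i y) ^ 2) ∂(gauss (N1 + N2)) :=
    integral_mono hL (hR1.add hR2) (fun y => rhodev_pointwise N1 N2 hN1 hN2 y)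
  rw [integral_add hR1 hR2, integral_const_mul, integral_const_mul, rhodev_sum_sq_integral] at h1
  have h2 := rhodev_l1_le (gauss (N1 + N2)) _ hT2
  rw [rhodev_sum_sq_integral, rhodev_sum_a_sq N1 N2 hN, Real.sqrt_mul (by norm_num)] at h2
  have h3 : ∑ i : Fin (N1 + N2), ((1 : ℝ)) ^ 2 = (N1 : ℝ) + N2 := by
    rw [Finset.sum_const, Finset.card_univ, Fintype.card_fin, nsmul_eq_mul, one_pow, mul_one,
      Nat.cast_add]
  rw [h3] at h1
  have h4 : 2 / ((N1 : ℝ) + N2) * ∫ y, |∑ i, rhodev_X (rhodev_a N1 N2) i y| ∂(gauss (N1 + N2)) ≤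
      2 / ((N1 : ℝ) + N2) * (Real.sqrt 2 * Real.sqrt ((N1 : ℝ) * N2 / ((N1 : ℝ) + N2))) :=
    mul_le_mul_of_nonneg_left h2 (by positivity)
  refine le_trans h1 (le_trans (add_le_add h4 (le_refl _)) (le_of_eq ?_))
  field_simp
  ring

end Vale.Agent.Lib.P157
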